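import Crest.Agent.X212.Spn45.Pt
import Crest.Agent.X212.Std94.Smo
import Crest.Agent.X212.Wz78.Gw

/-!
# X212 / SPIN (helper45), file Conn: admissible connections on `An/Gauge`

`can m G` : the canonical admissible connection; `isConn_can`, `exists_conn`.
-/

set_option autoImplicit false
set_option linter.unusedSectionVars false

open scoped Manifold ContDiff Topology InnerProductSpace
open Finset Filter

noncomputable section
namespace Crest.Agent.X212.Spn45
open An Sob92 Wz78
open Std94 (Kl pmx plx hs)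

variable {E : Type} [NormedAddCommGroup E] [NormedSpace ℝ E] [FiniteDimensional ℝ E]
  [MeasurableSpace E] [BorelSpace E]
  {HM : Type} [TopologicalSpace HM] {I : ModelWithCorners ℝ E HM}
  {M : Type} [TopologicalSpace M] [ChartedSpace HM M] [IsManifold I ∞ M]
  [MeasurableSpace M] {ι : Type} [Fintype ι] {lam : Type} [Fintype lam]
  {m : Md M ι lam} {B : Base M ι lam} {G G' : Geo I M ι lam} {W W' : m.Cn} {x : M}

/-- the reference basis of the space containing the line -/
abbrev eb (lam : Type) [Fintype lam] := stdOrthonormalBasis ℝ (Eu lam)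

variable (m G) in
/-- the defect of the determinant condition -/
def dj (W : m.Cn) (a : ι) (x : M) : CL (Eu lam) (En (Fin m.N)) :=
  G.F.D a m.j x + ad m.V (W a x) ∘L m.j x - m.j x ∘L G.a a x

theorem dj_apply (a : ι) (s : Eu lam) : dj m G W a x s =
    G.F.D a m.j x s + (W a x * m.j x s - m.j x s * W a x) - m.j x (G.a a x s) := rfl

variable (m G) in
/-- correction of the central part -/
def cw (W : m.Cn) : m.Cn := fun a x =>
  W a x - (1 / 4 : ℝ) • ∑ b, dj m G W a x (eb lam b) * m.j x (eb lam b)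

variable (m G) in
/-- **the canonical connection** -/
def can : m.Cn := cw m G (w2 I G.F.e G.F.Gam m.p m.ρ)

theorem nab_j (H : m.OK I B) (a : ι) {σ : M → Eu lam} (hσ : SA I σ x) :
    nabE I G.F.e W a (fun y => m.j y (σ y)) x =
      dj m G W a x (σ x) + m.j x (nab I G.F.e G.a a σ x) := by
  rw [nabE, dv_app (SA.md (H.sj x)) hσ.md, nab, map_add, dj_apply, Pre.D_def]; abel

theorem j_anti (H : m.OK I B) (s t : Eu lam) :
    m.j x s * m.j x t + m.j x t * m.j x s = (2 * ⟪B.l x s, B.l x t⟫_ℝ) • m.p x := by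
  have h := H.jsq x (s + t)
  rw [map_add, map_add, norm_add_sq_real, add_mul, mul_add, mul_add, H.jsq, H.jsq, add_smul,
    add_smul] at h
  rw [← sub_eq_zero, ← sub_eq_zero.2 h]; abel

theorem nab_l (hB : B.OK I) (hG : G.OK B) (a : ι) (s : Eu lam) :
    nab I G.F.e G.a a (fun y => B.l y s) x = B.l x (G.a a x s) := by
  rw [nab_app' (u := fun _ => s) a (hB.sl x) contMDiffAt_const,
    show nabE I G.F.e G.a a B.l x = 0 from hG.par a x]
  simp [nab]

theorem dj_eq (hB : B.OK I) (hG : G.OK B) (H : m.OK I B) (C : CC I G.F.e B.P G.F.Gam m.p m.ρ W)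
    (sk : ∀ a x, Skw (W a x)) (hJ : ∀ a x, m.J * W a x = W a x * m.J) (a : ι) (x : M) :
    ∃ β : ℝ, ∀ s, dj m G W a x s = β • (m.J * m.j x s) := by
  have hc : ∀ {N : Type} [NormedAddCommGroup N] [NormedSpace ℝ N] (s : N), SA I (fun _ : M => s) x :=
    fun _ => contMDiffAt_const
  have hj : ∀ s, SA I (fun y => m.j y s) x := fun s => SA.app (H.sj x) (hc s)
  have n : ∀ s, nabE I G.F.e W a (fun y => m.j y s) x = dj m G W a x s + m.j x (G.a a x s) :=
    fun s => by rw [nab_j H a (hc s)]; simp [nab]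
  have nJ : nabE I G.F.e W a (fun _ => m.J) x = 0 := by simp [nabE, hJ]
  have np : nabE I G.F.e W a m.p x = 0 := C.par a x
  refine jdef (pmx H x) (plx hB x) (hB.pr x) (hB.rk x) (fun s => ?_) (fun s => ?_) (fun s => ?_)
    (fun s => ?_) (fun b s => ?_) (fun s => ?_) fun s => ?_
  · have := nab_j (G := G) (W := W) H a (SA.app (hB.sl x) (hc s))
    simp only [H.jl, n, nab_l hB hG] at this
    exact (add_right_cancel this).symm
  · have := n (B.il s)
    simp only [H.jil] at this
    rw [nabE_mul a (hc _) (hj s), nJ, n, ← mul_apply_eq_comp, ← hG.il, mul_apply_eq_comp, H.jil,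
      zero_mul, zero_add, mul_add] at this
    exact (add_right_cancel this).symm
  · rw [← add_sub_cancel_right (dj m G W a x s) (m.j x (G.a a x s)), ← n]
    exact (syS m.V).sub_mem ((syS m.V).add_mem (dv_sy (hj s) fun y => H.jsym y s)
      (Sk.lie_sy (sk a x) (H.jsym x s))) (show Sy _ from H.jsym x (G.a a x s))
  · have := nabE_add (e := G.F.e) (A := W) a ((hj s).mul (hc m.J)) ((hc m.J).mul (hj s))
    rw [nabE_mul a (hj s) (hc _), nabE_mul a (hc _) (hj s), nJ, n] at this
    simp only [H.jJ, neg_add_cancel, mul_zero, zero_mul, add_zero, zero_add, add_mul, mul_add,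
      nabE, dv_const, Pi.zero_apply, sub_self] at this
    rw [eq_neg_iff_add_eq_zero, this]; abel
  · have := nabE_mul (e := G.F.e) (A := W) a (hj s) (C.sρ b x)
    simp only [H.jρ] at this
    rw [nabE_mul a (C.sρ b x) (hj s), show nabE I G.F.e W a (m.ρ b) x = _ from C.comp a b x, n]
      at this
    simp only [mul_sum, sum_mul, mul_smul_comm, smul_mul_assoc, H.jρ, add_mul, mul_add] at this
    rw [← sub_eq_zero, ← sub_eq_zero.2 this.symm]; abel
  · have := nabE_mul (e := G.F.e) (A := W) a (C.sp x) (hj s)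
    simp only [H.pj] at this
    rw [np, n, zero_mul, zero_add, mul_add, H.pj] at this
    exact (add_right_cancel this).symm
  · have := nabE_mul (e := G.F.e) (A := W) a (hj s) (hj s)
    have hl := SA.app (hB.sl x) (hc s)
    simp only [H.jsq, ← real_inner_self_eq_norm_sq] at this
    rw [nabE_smul a (hl.inner hl) (C.sp x), np, dv_inner a (hG.sk a x) hl hl, nab_l hB hG, n,
      add_mul, mul_add, add_add_add_comm, j_anti H, real_inner_comm (B.l x (G.a a x s)),
      ← two_mul, smul_zero, add_zero, right_eq_add] at this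
    exact this

theorem sa_dj (hG : G.OK B) (H : m.OK I B) {a : ι} (hW : SA I (W a) x) (s : Eu lam) :
    SA I (fun y => dj m G W a y s) x := by
  have hj : SA I (fun y => m.j y s) x := SA.app (H.sj x) contMDiffAt_const
  have h1 : SA I (fun y => G.F.D a m.j y s) x := SA.app ((gfrm hG).sD a (H.sj x)) contMDiffAt_const
  have h2 : SA I (fun y => m.j y (G.a a y s)) x :=
    SA.app (H.sj x) (SA.app (hG.con.sm a x) contMDiffAt_const)
  exact (h1.add ((hW.mul hj).sub (hj.mul hW))).sub h2

theorem dj_proj (hG : G.OK B) (C : Con I B.P W) (a : ι) (x : M) :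
    ∑ b, B.P a b x • dj m G W b x = dj m G W a x := by
  simp only [dj, Pre.D_def]
  rw [← (gfrm hG).projD a m.j x, ← C.proj a x, ← hG.con.proj a x]
  simp only [smul_sub, smul_add, sum_sub_distrib, sum_add_distrib, map_sum, map_smul,
    ContinuousLinearMap.finsetSum_comp, ContinuousLinearMap.comp_finsetSum,
    ContinuousLinearMap.smul_comp, ContinuousLinearMap.comp_smul]

theorem sk_Jp (H : m.OK I B) (x : M) : Sk (m.J * m.p x) := Sk.mul_sy H.Jsk (H.psym x) (H.Jp x)

theorem Jp_p (H : m.OK I B) (x : M) : m.J * m.p x * m.p x = m.p x * (m.J * m.p x) := by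
  rw [← mul_assoc, ← H.Jp]

theorem Jp_ρ (H : m.OK I B) (a : ι) (x : M) : m.J * m.p x * m.ρ a x = m.ρ a x * (m.J * m.p x) := by
  rw [mul_assoc, (H.cl x).pl, ← mul_assoc, ← H.Jρ, mul_assoc, (H.cl x).pr]

theorem J_Jp (H : m.OK I B) (x : M) : m.J * (m.J * m.p x) = m.J * m.p x * m.J := by
  rw [mul_assoc, H.Jp]

/-- every unitary Clifford connection becomes admissible after a central correction -/
theorem isConn_cw (hB : B.OK I) (hG : G.OK B) (H : m.OK I B)
    (C : CC I G.F.e B.P G.F.Gam m.p m.ρ W) (sk : ∀ a x, Skw (W a x))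
    (hJ : ∀ a x, m.J * W a x = W a x * m.J) : m.IsConn B G (cw m G W) := by
  choose β hβ using dj_eq hB hG H C sk hJ
  have e : ∀ a x, -((1 / 4 : ℝ) • ∑ b, dj m G W a x (eb lam b) * m.j x (eb lam b)) =
      (-β a x / 2) • (m.J * m.p x) := fun a x => by
    simp only [hβ, smul_mul_assoc, mul_assoc, ← smul_sum, ← mul_sum, sum_jj (pmx H x) (plx hB x),
      mul_smul_comm]
    module
  have e' : ∀ a x, cw m G W a x = W a x + (-β a x / 2) • (m.J * m.p x) := fun a x => by
    rw [← e, cw, sub_eq_add_neg]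
  refine ⟨?_, fun a x => ?_, fun a x => ?_, fun a x s => ?_⟩
  · have := C.addA (B := fun a x => -((1 / 4 : ℝ) • ∑ b, dj m G W a x (eb lam b) * m.j x (eb lam b)))
      ⟨fun a x => (SA.smul (f := fun _ => (1 / 4 : ℝ)) contMDiffAt_const (SA.sum _ fun b _ =>
        (sa_dj hG H (C.sm a x) _).mul (SA.app (H.sj x) contMDiffAt_const))).neg, fun a x => by
        rw [← dj_proj hG C.toCon a x]
        simp only [_root_.sum_apply, smul_apply, sum_mul, smul_mul_assoc, smul_neg,
          sum_neg_distrib, smul_comm _ (1 / 4 : ℝ), ← smul_sum]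
        simp only [smul_sum]
        rw [sum_comm]⟩
      (fun a x => by rw [e, smul_mul_assoc, mul_smul_comm, Jp_p H])
      (fun a b x => by rw [e, smul_mul_assoc, mul_smul_comm, Jp_ρ H])
    convert this using 1
    funext a x
    exact sub_eq_add_neg _ _
  · rw [e']; exact (skS _).add_mem (sk a x) ((skS _).smul_mem _ (sk_Jp H x))
  · rw [e', mul_add, add_mul, hJ, mul_smul_comm, smul_mul_assoc, J_Jp H]
  · have h := hβ a x s
    rw [dj_apply, sub_eq_iff_eq_add'] at h
    rw [e', add_mul, mul_add, add_sub_add_comm, ← add_assoc, h, smul_mul_assoc, mul_smul_comm,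
      ← smul_sub, lie_Jp (pmx H x)]
    module

theorem cd_md (hB : B.OK I) (H : m.OK I B) : CD I m.p m.ρ B.P :=
  ⟨H.sp, H.sρ, H.cl, H.pidem, hB.rk⟩

/-- **CONN**: the canonical connection is admissible -/
theorem isConn_can (hB : B.OK I) (hG : G.OK B) (H : m.OK I B) : m.IsConn B G (can m G) :=
  isConn_cw hB hG H ((cd_md hB H).cc (gfrm hG) (glc hG) (gsep hG))
    ((cd_md hB H).w2_sk (gfrm hG) (glc hG) H.psym H.ρsk) ((cd_md hB H).w2_comm H.Jp H.Jρ)

theorem exists_conn (hB : B.OK I) (hG : G.OK B) (H : m.OK I B) : ∃ W, m.IsConn B G W :=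
  ⟨_, isConn_can hB hG H⟩

end Crest.Agent.X212.Spn45
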