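import Crest.Agent.X212.Spn45.Gen
import Crest.Agent.X212.Wz78.Lich
import Crest.Agent.X212.Wz78.Var

/-!
# X212 / SPIN (helper45), file Cc: the canonical Clifford connection

`w2 I e Γ p ρ` is a Clifford connection (`Wz78.CC`) for every smooth Clifford family over a frame of
rank four; it is skew, commutes with the parallel commutant, and is a polynomial in the first jets.
`chg` : change of the frame `e ↦ S e`.
-/

set_option autoImplicit false
set_option linter.unusedSectionVars false

open scoped Manifold ContDiff Topology InnerProductSpace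
open Finset Filter

noncomputable section
namespace Crest.Agent.X212.Spn45
open Sob92 Wz78

variable {E H : Type*} [NormedAddCommGroup E] [NormedSpace ℝ E] [TopologicalSpace H]
  {I : ModelWithCorners ℝ E H} {M : Type*} [TopologicalSpace M] [ChartedSpace H M]
  {V W X : Type*} [NormedAddCommGroup V] [InnerProductSpace ℝ V] [NormedAddCommGroup W]
  [NormedSpace ℝ W] [NormedAddCommGroup X] [NormedSpace ℝ X]
  {ι : Type*} [Fintype ι] [IsManifold I 1 M]

/-- skew operators -/
def Sk (T : V →L[ℝ] V) : Prop := ∀ v w, ⟪T v, w⟫_ℝ = -⟪v, T w⟫_ℝ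

/-- symmetric operators -/
def Sy (T : V →L[ℝ] V) : Prop := ∀ v w, ⟪T v, w⟫_ℝ = ⟪v, T w⟫_ℝ

variable (V) in
/-- the space of skew operators -/
def skS : Submodule ℝ (V →L[ℝ] V) where
  carrier := {T | Sk T}
  zero_mem' := fun _ _ => by simp
  add_mem' := fun {S T} h k v w => by
    simp only [add_apply, inner_add_left, inner_add_right, h v w, k v w]; ring
  smul_mem' := fun c T h v w => by
    simp only [smul_apply, real_inner_smul_left, real_inner_smul_right, h v w]; ring

variable (V) in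
/-- the space of symmetric operators -/
def syS : Submodule ℝ (V →L[ℝ] V) where
  carrier := {T | Sy T}
  zero_mem' := fun _ _ => by simp
  add_mem' := fun {S T} h k v w => by
    simp only [add_apply, inner_add_left, inner_add_right, h v w, k v w]
  smul_mem' := fun c T h v w => by
    simp only [smul_apply, real_inner_smul_left, real_inner_smul_right, h v w]

theorem Sk.lie {S T : V →L[ℝ] V} (h : Sk S) (k : Sk T) : Sk (S * T - T * S) := fun v w => by
  simp only [sub_apply, mul_apply_eq_comp, inner_sub_left, inner_sub_right, h _ w, k _ w, h v _,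
    k v _]
  ring

theorem Sy.lie {S T : V →L[ℝ] V} (h : Sy S) (k : Sy T) : Sk (S * T - T * S) := fun v w => by
  simp only [sub_apply, mul_apply_eq_comp, inner_sub_left, inner_sub_right, h _ w, k _ w, h v _,
    k v _]
  ring

theorem Sk.lie_sy {S T : V →L[ℝ] V} (h : Sk S) (k : Sy T) : Sy (S * T - T * S) := fun v w => by
  simp only [sub_apply, mul_apply_eq_comp, inner_sub_left, inner_sub_right, h _ w, k _ w, h v _,
    k v _]
  ring

theorem Sk.mul_sy {S T : V →L[ℝ] V} (h : Sk S) (k : Sy T) (c : S * T = T * S) : Sk (S * T) :=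
  fun v w => by
    conv_rhs => rw [c]
    simp only [mul_apply_eq_comp, h _ w, k v _]

theorem Sk.conj {S T : V →L[ℝ] V} (h : Sk S) (k : Sk T) : Sk (S * T * S) := fun v w => by
  simp only [mul_apply_eq_comp, h _ w, k _ (S w), h v _]
  ring

theorem omG_sk {ρ θ : ι → V →L[ℝ] V} (hρ : ∀ a, Sk (ρ a)) (hθ : ∀ a, Sk (θ a))
    (h : ∀ a, θ a * ρ a = -(ρ a * θ a)) : Sk (omG ρ θ) := by
  refine omG_mem (skS V) (fun a T hT => (hρ a).conj hT) ((skS V).sum_mem fun a _ v w => ?_)
  have := congrArg (fun T : V →L[ℝ] V => T w) (h a)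
  simp only [mul_apply_eq_comp, neg_apply] at this
  simp only [mul_apply_eq_comp, hρ a _ w, hθ a v _, this, inner_neg_right, neg_neg]

theorem spin_sk {ρ : ι → V →L[ℝ] V} (hρ : ∀ a, Sk (ρ a)) {w : ι → ι → ℝ}
    (hs : ∀ m l, w m l = -w l m) : Sk (spin ρ w) := by
  have e : spin ρ w = (1 / 8 : ℝ) • ∑ m, ∑ l, w m l • (ρ m * ρ l - ρ l * ρ m) := by
    have : ∑ m, ∑ l, w m l • (ρ l * ρ m) = -∑ m, ∑ l, w m l • (ρ m * ρ l) := by
      rw [sum_comm]
      simp only [← sum_neg_distrib, ← neg_smul]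
      exact sum_congr rfl fun m _ => sum_congr rfl fun l _ => by rw [hs l m]
    simp only [smul_sub, sum_sub_distrib, this, spin]
    module
  rw [e]
  exact (skS V).smul_mem _ ((skS V).sum_mem fun m _ => (skS V).sum_mem fun l _ =>
    (skS V).smul_mem _ ((hρ m).lie (hρ l)))

variable {e : ι → (x : M) → TangentSpace I x} {v : (x : M) → TangentSpace I x}

theorem dv_lin_zero (L : W →L[ℝ] X) {f : M → W} {x : M} (hf : SA I f x) (h : ∀ y, L (f y) = 0) :
    L (dv I v f x) = 0 := by
  rw [← dv_clm L hf.md, show (fun y => L (f y)) = fun _ => 0 from funext h, dv_const]; rfl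

/-- the functional `T ↦ ⟪T v, w⟫ + s ⟪v, T w⟫` -/
def bf (s : ℝ) (v w : V) : (V →L[ℝ] V) →L[ℝ] ℝ :=
  innerSL ℝ w ∘L ContinuousLinearMap.apply ℝ V v + s • (innerSL ℝ v ∘L ContinuousLinearMap.apply ℝ V w)

theorem bf_apply (s : ℝ) (v w : V) (T : V →L[ℝ] V) : bf s v w T = ⟪T v, w⟫_ℝ + s * ⟪v, T w⟫_ℝ := by
  simp [bf, real_inner_comm]

theorem dv_sk {f : M → V →L[ℝ] V} {x : M} (hf : SA I f x) (h : ∀ y, Sk (f y)) :
    Sk (dv I v f x) := fun a b => by
  have := dv_lin_zero (v := v) (bf 1 a b) hf fun y => by rw [bf_apply, h y a b]; ring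
  rw [bf_apply] at this; linarith

theorem dv_sy {f : M → V →L[ℝ] V} {x : M} (hf : SA I f x) (h : ∀ y, Sy (f y)) :
    Sy (dv I v f x) := fun a b => by
  have := dv_lin_zero (v := v) (bf (-1) a b) hf fun y => by rw [bf_apply, h y a b]; ring
  rw [bf_apply] at this; linarith

theorem dv_comm {𝔸 : Type*} [NormedRing 𝔸] [NormedAlgebra ℝ 𝔸] {f : M → 𝔸} {x : M} {J : 𝔸}
    (hf : SA I f x) (h : ∀ y, J * f y = f y * J) : J * dv I v f x = dv I v f x * J := by
  have := dv_lin_zero (v := v)
    (ContinuousLinearMap.mul ℝ 𝔸 J - (ContinuousLinearMap.mul ℝ 𝔸).flip J) hf fun y => by simp [h y]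
  simpa [sub_eq_zero] using this

theorem dv_fun_congr {f g : M → W} (h : ∀ y, f y = g y) (x : M) : dv I v f x = dv I v g x := by
  rw [show f = g from funext h]

section defs
variable (I) (e) (Γ : ι → ι → ι → M → ℝ) (p : M → V →L[ℝ] V) (ρ : ι → M → V →L[ℝ] V)

/-- the projector connection -/
def w1 (a : ι) (x : M) : V →L[ℝ] V := p x * dv I (e a) p x - dv I (e a) p x * p x

/-- the defect of the projector connection -/
def th (a b : ι) (x : M) : V →L[ℝ] V :=
  dv I (e a) (ρ b) x + (w1 I e p a x * ρ b x - ρ b x * w1 I e p a x) - ∑ k, Γ a b k x • ρ k x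

/-- the canonical Clifford connection -/
def w2 (a : ι) (x : M) : V →L[ℝ] V :=
  w1 I e p a x + omG (fun b => ρ b x) fun b => th I e Γ p ρ a b x

/-- smooth Clifford data of rank four -/
structure CD (P : ι → ι → M → ℝ) : Prop where
  sp : ∀ x, SA I p x
  sρ : ∀ a x, SA I (ρ a) x
  cl : ∀ x, Cl (fun a b => P a b x) (p x) fun a => ρ a x
  idem : ∀ x, p x * p x = p x
  rk : ∀ x, ∑ a, P a a x = 4

end defs

variable {P : ι → ι → M → ℝ} {c Γ : ι → ι → ι → M → ℝ} {p : M → V →L[ℝ] V}
  {ρ : ι → M → V →L[ℝ] V}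

theorem dp_eq (sp : ∀ x, SA I p x) (idem : ∀ x, p x * p x = p x) (x : M) :
    dv I v p x * p x + p x * dv I v p x = dv I v p x := by
  rw [← dv_mul (sp x) (sp x)]; exact dv_fun_congr idem x

theorem w1_par (sp : ∀ x, SA I p x) (idem : ∀ x, p x * p x = p x) (a : ι) (x : M) :
    dv I (e a) p x + (w1 I e p a x * p x - p x * w1 I e p a x) = 0 := by
  have h := dp_eq (v := e a) sp idem x
  have h0 : p x * dv I (e a) p x * p x = 0 := by
    have := congrArg (fun T => p x * T) h
    simp only [mul_add, ← mul_assoc, idem] at this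
    simpa using this
  have : w1 I e p a x * p x - p x * w1 I e p a x = p x * dv I (e a) p x * p x -
      dv I (e a) p x * (p x * p x) - p x * p x * dv I (e a) p x + p x * dv I (e a) p x * p x := by
    simp only [w1]; noncomm_ring
  rw [this, h0, idem]
  nth_rewrite 1 [← h]
  abel

theorem CD.derP (D : CD I p ρ P) (F : Frm I e P c) (L : LC I e P c Γ) (a : ι) (x : M) :
    DerP (fun a b => P a b x) (p x) (fun b => ρ b x) fun b => th I e Γ p ρ a b x := by
  have hp := w1_par (e := e) D.sp D.idem a x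
  have C := D.cl x
  have hp' : dv I (e a) p x = -(w1 I e p a x * p x - p x * w1 I e p a x) :=
    eq_neg_of_add_eq_zero_left hp
  refine ⟨fun b => ?_, fun b => ?_, fun b k => ?_, fun b => ?_⟩
  · have h1 : dv I (e a) (ρ b) x = dv I (e a) p x * ρ b x + p x * dv I (e a) (ρ b) x := by
      rw [← dv_mul (D.sp x) (D.sρ b x)]; exact dv_fun_congr (fun y => ((D.cl y).pl b).symm) x
    simp only [th, mul_sub, mul_add, mul_sum, mul_smul_comm, C.pl]
    conv_rhs => rw [h1, hp']
    have := C.pl b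
    simp only [← mul_assoc, neg_mul, sub_mul, this]
    rw [mul_assoc _ (p x), this]
    abel
  · have h1 : dv I (e a) (ρ b) x = dv I (e a) (ρ b) x * p x + ρ b x * dv I (e a) p x := by
      rw [← dv_mul (D.sρ b x) (D.sp x)]; exact dv_fun_congr (fun y => ((D.cl y).pr b).symm) x
    simp only [th, sub_mul, add_mul, sum_mul, smul_mul_assoc, C.pr]
    conv_rhs => rw [h1, hp']
    have := C.pr b
    simp only [mul_assoc, mul_neg, mul_sub, this]
    rw [← mul_assoc _ (p x), this]
    abel
  · have h1 : dv I (e a) (ρ b) x * ρ k x + ρ b x * dv I (e a) (ρ k) x +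
        (dv I (e a) (ρ k) x * ρ b x + ρ k x * dv I (e a) (ρ b) x) =
        (-2 * dv I (e a) (P b k) x) • p x + (-2 * P b k x) • dv I (e a) p x := by
      rw [← dv_mul (D.sρ b x) (D.sρ k x), ← dv_mul (D.sρ k x) (D.sρ b x),
        ← dv_add' ((D.sρ b x).mul (D.sρ k x)) ((D.sρ k x).mul (D.sρ b x)),
        dv_fun_congr (fun y => (D.cl y).rel b k) x,
        dv_smul (SA.mul contMDiffAt_const (F.sP b k x)).md (D.sp x).md,
        dv_mul contMDiffAt_const (F.sP b k x), dv_const]
      simp
    have h2 : ∀ b k, (∑ l, Γ a b l x • ρ l x) * ρ k x + ρ k x * ∑ l, Γ a b l x • ρ l x =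
        (-2 * Γ a b k x) • p x := fun b k => by
      simp only [sum_mul, mul_sum, smul_mul_assoc, mul_smul_comm, ← sum_add_distrib, ← smul_add,
        C.rel, smul_smul, ← sum_smul]
      rw [← L.proj a b k x, mul_sum]
      congr 1
      exact sum_congr rfl fun l _ => by ring
    have h3 : w1 I e p a x * (ρ b x * ρ k x + ρ k x * ρ b x) -
        (ρ b x * ρ k x + ρ k x * ρ b x) * w1 I e p a x =
        (-2 * P b k x) • (w1 I e p a x * p x - p x * w1 I e p a x) := by
      rw [C.rel, mul_smul_comm, smul_mul_assoc, smul_sub]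
    have : th I e Γ p ρ a b x * ρ k x + ρ b x * th I e Γ p ρ a k x + th I e Γ p ρ a k x * ρ b x +
        ρ k x * th I e Γ p ρ a b x = (dv I (e a) (ρ b) x * ρ k x + ρ b x * dv I (e a) (ρ k) x +
        (dv I (e a) (ρ k) x * ρ b x + ρ k x * dv I (e a) (ρ b) x)) +
        (w1 I e p a x * (ρ b x * ρ k x + ρ k x * ρ b x) -
        (ρ b x * ρ k x + ρ k x * ρ b x) * w1 I e p a x) -
        ((∑ l, Γ a b l x • ρ l x) * ρ k x + ρ k x * ∑ l, Γ a b l x • ρ l x) -
        ((∑ l, Γ a k l x • ρ l x) * ρ b x + ρ b x * ∑ l, Γ a k l x • ρ l x) := by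
      simp only [th]; noncomm_ring
    rw [this, h1, h2, h2, h3, hp', L.met]
    module
  · have h1 : dv I (e a) (ρ b) x =
        ∑ k, (dv I (e a) (P b k) x • ρ k x + P b k x • dv I (e a) (ρ k) x) := by
      rw [← dv_fun_congr (fun y => (D.cl y).proj b) x,
        dv_sum' _ fun k => (F.sP b k x).smul (D.sρ k x)]
      exact sum_congr rfl fun k _ => dv_smul (F.sP b k x).md (D.sρ k x).md
    have h2 : ∑ k, P b k x • ∑ l, Γ a k l x • ρ l x =
        ∑ l, Γ a b l x • ρ l x - ∑ k, dv I (e a) (P b k) x • ρ k x := by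
      simp only [smul_sum, smul_smul]
      rw [sum_comm]
      simp only [← sum_smul, L.proj2 F]
      simp only [sub_smul, sum_sub_distrib, sum_smul]
      congr 1
      rw [sum_comm]
      exact sum_congr rfl fun m _ => by
        have := C.proj m
        simp only [mul_smul, ← smul_sum, this]
    have h3 : ∑ k, P b k x • (w1 I e p a x * ρ k x - ρ k x * w1 I e p a x) =
        w1 I e p a x * ρ b x - ρ b x * w1 I e p a x := by
      conv_rhs => rw [← C.proj b]
      simp only [mul_sum, sum_mul, mul_smul_comm, smul_mul_assoc, smul_sub, sum_sub_distrib]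
    simp only [th, smul_sub, smul_add, sum_sub_distrib, sum_add_distrib, h2] at h3 ⊢
    rw [h3, h1, sum_add_distrib]
    abel

theorem w1_sa (F : Frm I e P c) (sp : ∀ x, SA I p x) (a : ι) (x : M) : SA I (w1 I e p a) x :=
  ((sp x).mul (F.sD a (sp x))).sub ((F.sD a (sp x)).mul (sp x))

theorem CD.th_sa (D : CD I p ρ P) (F : Frm I e P c) (L : LC I e P c Γ) (a b : ι) (x : M) :
    SA I (th I e Γ p ρ a b) x :=
  ((F.sD a (D.sρ b x)).add (((w1_sa F D.sp a x).mul (D.sρ b x)).sub
    ((D.sρ b x).mul (w1_sa F D.sp a x)))).sub (SA.sum _ fun k _ => (L.sm a b k x).smul (D.sρ k x))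

variable (I W) in
/-- functions smooth at a point -/
def saS (x : M) : Submodule ℝ (M → W) where
  carrier := {f | SA I f x}
  zero_mem' := contMDiffAt_const
  add_mem' := fun h k => h.add k
  smul_mem' := fun c _ h => SA.smul (f := fun _ => c) contMDiffAt_const h

theorem omG_sa {ρ θ : ι → M → V →L[ℝ] V} {x : M} (hρ : ∀ a, SA I (ρ a) x)
    (hθ : ∀ a, SA I (θ a) x) : SA I (fun y => omG (fun b => ρ b y) fun b => θ b y) x := by
  have := omG_mem (ρ := ρ) (θ := θ) (saS I (V →L[ℝ] V) x)
    (fun a T hT => ((hρ a).mul hT).mul (hρ a)) ((saS I _ x).sum_mem fun a _ => (hρ a).mul (hθ a))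
  simp only [← omG_apply]
  exact this

theorem w1_proj (F : Frm I e P c) (a : ι) (x : M) : ∑ b, P a b x • w1 I e p b x = w1 I e p a x := by
  simp only [w1]
  rw [← F.projD a p x]
  simp only [mul_sum, sum_mul, mul_smul_comm, smul_mul_assoc, smul_sub, sum_sub_distrib]

theorem th_proj (F : Frm I e P c) (L : LC I e P c Γ) (S : Sep I e P) (a b : ι) (x : M) :
    ∑ k, P a k x • th I e Γ p ρ k b x = th I e Γ p ρ a b x := by
  simp only [th]
  rw [← F.projD a (ρ b) x, ← w1_proj F a x]
  simp only [← L.proj1 F S a b, sum_smul, mul_sum, sum_mul, mul_smul_comm, smul_mul_assoc,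
    smul_sub, smul_add, sum_sub_distrib, sum_add_distrib, smul_sum, smul_smul]
  rw [sum_comm (f := fun k l => (P a k x * Γ k b l x) • ρ l x)]

/-- **the canonical connection is a Clifford connection** -/
theorem CD.cc (D : CD I p ρ P) (F : Frm I e P c) (L : LC I e P c Γ) (S : Sep I e P) :
    CC I e P Γ p ρ (w2 I e Γ p ρ) where
  sm a x := (w1_sa F D.sp a x).add (omG_sa (fun b => D.sρ b x) fun b => D.th_sa F L a b x)
  proj a x := by
    simp only [w2, smul_add, sum_add_distrib, w1_proj F, ← omG_sum, th_proj F L S]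
  sp := D.sp
  sρ := D.sρ
  cl := D.cl
  par a x := by
    have h := w1_par (e := e) D.sp D.idem a x
    simp only [w2, add_mul, mul_add, omG_pl (D.cl x), omG_pr (D.cl x) (D.derP F L a x).pr]
    rw [← h]; abel
  comp a b x := by
    have h := omG_spec (F.pr x) (D.rk x) (D.cl x) (D.derP F L a x) b
    rw [← sub_eq_zero, ← h]
    simp only [w2, add_mul, mul_add, th]
    abel

theorem CD.w2_sk (D : CD I p ρ P) (F : Frm I e P c) (L : LC I e P c Γ) (hp : ∀ x, Sy (p x))
    (hρ : ∀ a x, Sk (ρ a x)) (a : ι) (x : M) : Sk (w2 I e Γ p ρ a x) := by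
  have h1 : Sk (w1 I e p a x) := (hp x).lie (dv_sy (D.sp x) hp)
  refine (skS V).add_mem h1 (omG_sk (fun b => hρ b x) (fun b => ?_) fun b => ?_)
  · exact (skS V).sub_mem ((skS V).add_mem (dv_sk (D.sρ b x) (hρ b)) (h1.lie (hρ b x)))
      ((skS V).sum_mem fun k _ => (skS V).smul_mem _ (hρ k x))
  · have := (D.derP F L a x).rel b b
    exact eq_neg_of_add_eq_zero_left (two_cancel (by rw [← this]; abel))

theorem CD.w2_comm (D : CD I p ρ P) {J : V →L[ℝ] V} (hp : ∀ x, J * p x = p x * J)
    (hρ : ∀ a x, J * ρ a x = ρ a x * J) (a : ι) (x : M) :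
    J * w2 I e Γ p ρ a x = w2 I e Γ p ρ a x * J := by
  have h1 : J * w1 I e p a x = w1 I e p a x * J :=
    (((show Commute J _ from hp x).mul_right (dv_comm (D.sp x) hp)).sub_right
      ((show Commute J _ from dv_comm (D.sp x) hp).mul_right (hp x))).eq
  have h2 : ∀ b, J * th I e Γ p ρ a b x = th I e Γ p ρ a b x * J := fun b =>
    (((show Commute J _ from dv_comm (D.sρ b x) (hρ b)).add_right
      (((show Commute J _ from h1).mul_right (hρ b x)).sub_right
        ((show Commute J _ from hρ b x).mul_right h1))).sub_right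
      (Commute.sum_right _ _ _ fun k _ => (show Commute J _ from hρ k x).smul_right _)).eq
  rw [w2, mul_add, add_mul, h1, omG_comm (fun b => hρ b x) h2]

/-! ### change of the frame -/

/-- the difference of the Levi-Civita coefficients -/
def dG (S : ι → ι → M → ℝ) (Γ Γ' : ι → ι → ι → M → ℝ) (a b k : ι) (x : M) : ℝ :=
  Γ' a b k x - ∑ l, S a l x * Γ l b k x

theorem dG_skew {e' : ι → (x : M) → TangentSpace I x} {c' Γ' : ι → ι → ι → M → ℝ}
    {S : ι → ι → M → ℝ} (L : LC I e P c Γ) (L' : LC I e' P c' Γ')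
    (hD : ∀ a (f : M → ℝ) x, dv I (e' a) f x = ∑ l, S a l x * dv I (e l) f x) (a b k : ι) (x : M) :
    dG S Γ Γ' a b k x = -dG S Γ Γ' a k b x := by
  have h := hD a (P b k) x
  simp only [L'.met, L.met, mul_add, sum_add_distrib] at h
  simp only [dG]; linarith

theorem dG_proj {e' : ι → (x : M) → TangentSpace I x} {c' Γ' : ι → ι → ι → M → ℝ}
    {S : ι → ι → M → ℝ} (L : LC I e P c Γ) (L' : LC I e' P c' Γ') (a b k : ι) (x : M) :
    ∑ l, dG S Γ Γ' a b l x * P l k x = dG S Γ Γ' a b k x := by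
  simp only [dG, sub_mul, sum_sub_distrib, L'.proj, sum_mul]
  rw [sum_comm]
  simp only [mul_assoc, ← mul_sum, L.proj]

/-- a Clifford connection for the frame `e' = S e` -/
theorem cc_chg {e' : ι → (x : M) → TangentSpace I x} {c' Γ' : ι → ι → ι → M → ℝ}
    {S : ι → ι → M → ℝ} {A : ι → M → V →L[ℝ] V} (C : CC I e P Γ p ρ A) (L : LC I e P c Γ)
    (F' : Frm I e' P c') (L' : LC I e' P c' Γ') (S' : Sep I e' P) (sS : ∀ a b x, SA I (S a b) x)
    (PS : ∀ a b x, ∑ k, P a k x * S k b x = S a b x)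
    (hD : ∀ a (f : M → ℝ) x, dv I (e' a) f x = ∑ l, S a l x * dv I (e l) f x)
    (hD' : ∀ a (f : M → V →L[ℝ] V) x, dv I (e' a) f x = ∑ l, S a l x • dv I (e l) f x) :
    CC I e' P Γ' p ρ fun a x => ∑ b, S a b x • A b x +
      spin (fun b => ρ b x) fun b k => dG S Γ Γ' a b k x where
  sm a x := (SA.sum _ fun b _ => (sS a b x).smul (C.sm b x)).add
    (SA.smul (f := fun _ => (1 / 4 : ℝ)) contMDiffAt_const (SA.sum _ fun b _ => SA.sum _ fun k _ =>
      SA.smul ((L'.sm a b k x).sub (SA.sum _ fun l _ => (sS a l x).mul (L.sm l b k x)))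
        ((C.sρ b x).mul (C.sρ k x))))
  proj a x := by
    simp only [smul_add, sum_add_distrib, ← spin_smul, ← spin_sum, smul_sum, smul_smul]
    congr 1
    · rw [sum_comm]; simp only [← sum_smul, PS]
    · congr 1
      funext b k
      simp only [dG, mul_sub, sum_sub_distrib, L'.proj1 F' S', mul_sum]
      rw [sum_comm]
      simp only [← mul_assoc, ← sum_mul, PS]
  sp := C.sp
  sρ := C.sρ
  cl := C.cl
  par a x := by
    rw [hD', add_mul, mul_add, (C.cl x).p_spin, (C.cl x).spin_p, add_sub_add_right_eq_sub]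
    simp only [sum_mul, mul_sum, smul_mul_assoc, mul_smul_comm, ← sum_sub_distrib,
      ← sum_add_distrib, ← smul_sub, ← smul_add, C.par, smul_zero, sum_const_zero]
  comp a b x := by
    have h := (C.cl x).spin_comm
      (fun b k => dG_skew L L' hD a b k x) (fun b k => dG_proj L L' a b k x) b
    have h2 : dv I (e' a) (ρ b) x + ((∑ l, S a l x • A l x) * ρ b x - ρ b x * ∑ l, S a l x • A l x)
        = ∑ k, (∑ l, S a l x * Γ l b k x) • ρ k x := by
      rw [hD']
      simp only [sum_mul, mul_sum, smul_mul_assoc, mul_smul_comm, ← sum_sub_distrib,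
        ← sum_add_distrib, ← smul_sub, ← smul_add, C.comp, smul_sum, smul_smul, sum_smul]
      exact sum_comm
    rw [add_mul, mul_add, add_sub_add_comm, ← add_assoc, h2, h, ← sum_add_distrib]
    exact sum_congr rfl fun k _ => by rw [← add_smul, dG]; congr 1; ring

end Crest.Agent.X212.Spn45
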