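import Crest.Agent.X212.Spn45.Nat
import Crest.Agent.X212.Wz78.Par

/-!
# Row 212, CRIT-LIFT (helper45): words on the cylinder are the lifts of the words on `Y`
-/

set_option autoImplicit false
set_option linter.unusedSectionVars false
noncomputable section
open scoped Manifold ContDiff Topology InnerProductSpace
open MeasureTheory Set Function Filter

namespace Crest.Agent.X212.Spn45
open An Wz78 Cyf70 Dgr80 Nd18 Crt72 Mp86
open Sob92 (dv)
open Wrd81 (wd)

variable {E3 : Type} [NormedAddCommGroup E3] [NormedSpace ℝ E3] [FiniteDimensional ℝ E3]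
  [MeasurableSpace E3] [BorelSpace E3]
  {H3 : Type} [TopologicalSpace H3] {I3 : ModelWithCorners ℝ E3 H3} [I3.Boundaryless]
  {Y : Type} [TopologicalSpace Y] [ChartedSpace H3 Y] [IsManifold I3 ∞ Y] [T2Space Y]
  [MeasurableSpace Y] [BorelSpace Y] [SecondCountableTopology Y] [CompactSpace Y]
  {κ : Type} [Fintype κ] {lam : Type} [Fintype lam]

section calculus
variable {N : Type} [NormedAddCommGroup N] [NormedSpace ℝ N] {e : κ → Π y : Y, TangentSpace I3 y}

theorem dv_fst (s : Y → N) (a : Option κ) :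
    dv (IC I3) (ce e a) (fun x => s x.1) = ca (fun a => dv I3 (e a) s) a := funext fun x => by
  by_cases h : MDifferentiableAt I3 𝓘(ℝ, N) s x.1
  · have h1 := h.comp x (mdifferentiableAt_fst (I' := 𝓘(ℝ, ℝ)))
    cases a with
    | none => exact (dv_none h1).trans (deriv_const x.2 (s x.1))
    | some a => exact dv_some h1 a
  · have h1 : ¬MDifferentiableAt (IC I3) 𝓘(ℝ, N) (fun x : Y × ℝ => s x.1) x :=
      fun k => h (mdiff_slice_fst k)
    cases a <;> simp only [Sob92.dv, ca, mfderiv_zero_of_not_mdifferentiableAt h,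
      mfderiv_zero_of_not_mdifferentiableAt h1] <;> rfl

theorem dv_sh {w : Y × ℝ → N} (hw : Sm (IC I3) w) (c : ℝ) (a : Option κ) (x : Y × ℝ) :
    dv (IC I3) (ce e a) (fun x => w (x.1, x.2 + c)) x = dv (IC I3) (ce e a) w (x.1, x.2 + c) := by
  have h1 : Sm (IC I3) fun x : Y × ℝ => w (x.1, x.2 + c) :=
    hw.comp (contMDiff_fst.prodMk (contMDiff_snd.add contMDiff_const))
  cases a with
  | none =>
    rw [dv_none (h1.mdifferentiableAt (by simp)), dv_none (hw.mdifferentiableAt (by simp))]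
    exact deriv_comp_add_const (fun s => w (x.1, s)) c x.2
  | some a =>
    rw [dv_some (h1.mdifferentiableAt (by simp)), dv_some (hw.mdifferentiableAt (by simp))]

theorem sm_ca {A : κ → Y → N} (h : ∀ a, Sm I3 (A a)) (a : Option κ) : Sm (IC I3) (ca A a) := by
  cases a
  exacts [contMDiff_const, sm_fst (h _)]

theorem bumps_cyl (F : Fr I3 Y κ) : Bumps (IC I3) (cyl F).e (cyl F).dv := by
  let g : ContDiffBump (0 : ℝ) := ⟨1, 2, one_pos, one_lt_two⟩
  have hg : ContDiff ℝ ∞ g := g.contDiff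
  obtain ⟨C, hC⟩ := (hg.iterate_deriv 2).continuous.bounded_above_of_compact_support
    g.hasCompactSupport.deriv.deriv
  refine ⟨C, fun x => ⟨fun y => g (y.2 - x.2), cm2 (sm_snd (hg.comp (contDiff_id.sub
    contDiff_const))), ?_, fun _ => g.le_one, by simpa using g.one_of_mem_closedBall (by simp [g]),
    fun y => ?_⟩⟩
  · refine HasCompactSupport.intro (isCompact_univ.prod (isCompact_closedBall x.2 2)) fun y hy => ?_
    refine g.zero_of_le_dist (le_of_not_ge fun k => hy ⟨trivial, ?_⟩)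
    simpa [dist_eq_norm] using k
  · have h1 : ContDiff ℝ ∞ fun t => g (t - x.2) := hg.comp (contDiff_id.sub contDiff_const)
    have h2 := fun a => D_some_snd F.toPre h1 a
    have h3 := D_none_snd F.toPre h1
    have h4 := D_none_snd F.toPre (h1.iterate_deriv 1)
    simp only [Pre.D_def] at h2 h3 h4
    have h5 : Lop (IC I3) (cyl F).e (cyl F).dv (fun y => g (y.2 - x.2)) y =
        deriv (deriv fun t => g (t - x.2)) y.2 := by
      rw [Lop, Fintype.sum_option]
      erw [h3, h4]
      simp only [show ∀ a, (cyl F).e a = (cylP F.toPre).e a from fun _ => rfl, h2, Sob92.dv_zero]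
      simp [cyl, Cyf70.cd]
    rw [h5, show (deriv fun t => g (t - x.2)) = fun t => deriv g (t - x.2) from
      funext fun t => deriv_comp_sub_const _ _ _, deriv_comp_sub_const]
    exact (abs_le.1 (hC _)).1

end calculus

section engine
variable {V U : Type} [NormedAddCommGroup V] [InnerProductSpace ℝ V] [CompleteSpace V]
  [NormedAddCommGroup U] [InnerProductSpace ℝ U] [CompleteSpace U]
  (F : Fr I3 Y κ) {A : κ → Y → CL V V} (r : CL U (CL V V))

theorem nab_ca (s : Y → V) (a : Option κ) : nab (IC I3) (cyl F).e (ca A) a (fun x => s x.1) =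
    ca (fun a => nab I3 F.e A a s) a := funext fun x => by
  refine (congrArg (· + _) (congrFun (dv_fst s a) x)).trans ?_
  cases a
  exacts [zero_add _, rfl]

theorem lap_ca (s : Y → V) (x : Y × ℝ) :
    lap (IC I3) (cyl F).e (cyl F).dv (ca A) (fun x => s x.1) x = lap I3 F.e F.dv A s x.1 := by
  have h0 := nab_ca F (A := A) (fun _ => 0) none
  simp only [lap, nab_ca, Fintype.sum_option, ca] at h0 ⊢
  simp only [h0, smul_zero, add_zero, zero_add]
  rfl

theorem isRes_ca {s u : Y → V} (h : F.IsRes A s u) :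
    (cyl F).IsRes (ca A) (fun x => s x.1) fun x => u x.1 :=
  ⟨sm_fst h.1, h.2.1.imp fun _ k x => k x.1, fun x => by rw [lap_ca, h.2.2]⟩

theorem mc_ca (hA : Mc I3 A) : Mc (IC I3) (ca A) :=
  ⟨sm_ca hA.sm, fun a x => by
    cases a
    exacts [fun _ _ => by simp [ca], hA.sk _ _]⟩

/-- **the resolvent of the cylinder on `t`-invariant sections** -/
theorem res_cyl (hA : Mc I3 A) (s : Y → V) :
    (cyl F).res (ca A) (fun x => s x.1) = fun x => F.res A s x.1 := by
  have hB := bumps_cyl F
  have hZ := mc_ca hA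
  rcases res_cases F A s with h | h
  · exact res_eq hB hZ (isRes_ca F h)
  rcases res_cases (cyl F) (ca A) (fun x => s x.1) with k | k
  · generalize (cyl F).res (ca A) (fun x => s x.1) = w at k
    have h1 : ∀ (c : ℝ) a {w : Y × ℝ → V}, Sm (IC I3) w → nab (IC I3) (cyl F).e (ca A) a
        (fun x => w (x.1, x.2 + c)) = fun x => nab (IC I3) (cyl F).e (ca A) a w (x.1, x.2 + c) :=
      fun c a w hw => funext fun x => congrArg₂ (· + ·) (dv_sh hw c a x) (by cases a <;> rfl)
    have h2 : ∀ c : ℝ, (fun x : Y × ℝ => w (x.1, x.2 + c)) = w := fun c =>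
      isRes_unique hB hZ ⟨k.1.comp (contMDiff_fst.prodMk (contMDiff_snd.add contMDiff_const)),
        k.2.1.imp fun _ b x => b _, fun x => by
          refine Eq.trans ?_ (k.2.2 (x.1, x.2 + c))
          simp only [lap, h1 c _ k.1, fun a => h1 c a (sm_nab (F := cyl F) hZ.sm a k.1)]
          congr 2
          exact Finset.sum_congr rfl fun a _ => by cases a <;> rfl⟩ k
    have h3 : w = fun x => w (x.1, 0) := funext fun x =>
      (by rw [zero_add] : w x = w (x.1, 0 + x.2)).trans (congrFun (h2 x.2) (x.1, 0))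
    refine (h.1 ⟨fun y => w (y, 0), sm_slice_fst k.1 0, k.2.1.imp fun _ b y => b _, fun y => ?_⟩).elim
    have h4 := k.2.2 (y, 0)
    rwa [h3, lap_ca F fun y => w (y, 0)] at h4
  · rw [h.2, k.2]; rfl

/-- the lift of a letter -/
def zl : SL Y V → SL (Y × ℝ) V
  | .op T => .op fun x => T x.1
  | .G => .G

variable (hA : Mc I3 A)
include hA

theorem wd_zl (s : Y → V) (w : List (SL Y V)) :
    wd (sl (cyl F) (ca A)) (fun x => s x.1) (w.map zl) = fun x => wd (sl F A) s w x.1 := by
  induction w with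
  | nil => rfl
  | cons t w ih =>
    rw [List.map_cons, Wrd81.wd_cons, ih]
    cases t
    exacts [rfl, res_cyl F hA _]

theorem bk_zl (w : List (SL Y V)) (l : Y → V) :
    bk (cyl F) (ca A) (w.map zl) (fun x => l x.1) = fun x => bk F A w l x.1 := by
  induction w generalizing l with
  | nil => rfl
  | cons t w ih =>
    cases t with
    | op T => exact ih (slT F A (.op T) l)
    | G => exact (congrArg (bk _ _ _) (res_cyl F hA l)).trans (ih _)

theorem gc_zl (s : Y → V) (w : List (SL Y V)) (l : Y → V) (x : Y × ℝ) :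
    dw κ U (gc (cyl F) (ca A) r (fun x => s x.1) (w.map zl) (fun x => l x.1) x) =
      gc F A r s w l x.1 := by
  induction w generalizing l with
  | nil => exact map_zero _
  | cons t w ih =>
    cases t with
    | op T => exact ih (slT F A (.op T) l)
    | G =>
      simp only [List.map_cons, zl, gc, wd_zl F hA, res_cyl F hA, map_sub, ih]
      congr 1
      ext1 a
      simp only [dw, cur, nab_ca]
      rfl

theorem bk_smul (a : ℝ) (w : List (SL Y V)) (l : Y → V) :
    bk F A w (fun y => a • l y) = fun y => a • bk F A w l y := by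
  induction w generalizing l with
  | nil => rfl
  | cons t w ih =>
    cases t with
    | op T => simp only [bk, slT, map_smul, ih]
    | G => simp only [bk, slT, res_smul bumps_of_compact hA, ih]

theorem gc_smul (a : ℝ) (s : Y → V) (w : List (SL Y V)) (l : Y → V) (y : Y) :
    gc F A r s w (fun y => a • l y) y = a • gc F A r s w l y := by
  induction w generalizing l with
  | nil => exact (smul_zero _).symm
  | cons t w ih =>
    cases t with
    | op T => simp only [gc, slT, map_smul, ih]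
    | G =>
      simp only [gc, res_smul bumps_of_compact hA, ih, smul_sub]
      congr 1
      ext1 b
      simp only [cur, nab_csmul b a (sm_res F A l y), tp, map_smul, smul_apply, PiLp.smul_apply,
        smul_add]

end engine

variable {D : YD I3 Y κ lam} {β : YC Y κ lam}

theorem nk_χ (x : Y × ℝ) : D.nk.χ x = 1 := by simp [Nk.χ, YD.nk, ct]

theorem nk_τ : D.nk.τ = Prod.snd := funext fun x => by simp [Nk.τ, YD.nk, tf]

theorem nk_ext {N : Type} [NormedAddCommGroup N] [NormedSpace ℝ N] (f : Y → N) :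
    D.nk.ext f = fun x => f x.1 := funext fun x => by rw [Nk.ext, nk_χ, one_smul]; rfl

theorem sum_dt {N : Type} [AddCommMonoid N] [Module ℝ N] (f : Option κ → N) (x : Y × ℝ) :
    ∑ a, D.Z.D a Prod.snd x • f a = f none := by
  have h1 : D.Z.D none Prod.snd x = 1 :=
    (congrFun (D_none_snd D.F.toPre contDiff_id) x).trans (deriv_id _)
  have h2 : ∀ a, D.Z.D (some a) Prod.snd x = 0 := fun a =>
    congrFun (D_some_snd D.F.toPre contDiff_id a) x
  simp only [Fintype.sum_option, h1, h2, one_smul, zero_smul, Finset.sum_const_zero, add_zero]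

theorem W_ca (hβ : D.Adm β) : (cy β).W = ca (cn β) := funext₂ fun a x => by
  cases a
  exacts [hβ.tmp _, rfl]

theorem lt_zl (u : List (YL Y)) :
    (u.map D.nk.lt).map (ltS D.Z (cy β)) = (u.map (ylt D.F β)).map zl := by
  rw [List.map_map, List.map_map]
  refine List.map_congr_left fun t _ => ?_
  match t with
  | .mul f => exact congrArg SL.op (funext fun x => by rw [nk_ext]; rfl)
  | .cl none =>
    exact congrArg SL.op (funext fun x => by rw [Nk.fn, nk_τ]; exact sum_dt _ x)
  | .cl (some g) =>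
    refine congrArg SL.op (funext fun x => ?_)
    have h0 : D.Z.D none (fun x => g x.1) x = 0 := congrFun (dv_fst (e := D.F.e) g none) x
    have h1 : ∀ a, D.Z.D (some a) (fun x => g x.1) x = D.F.D a g x.1 :=
      fun a => congrFun (dv_fst g (some a)) x
    rw [Nk.fn, nk_ext, Fintype.sum_option]
    simp only [h0, h1, zero_smul, zero_add]
    rfl
  | .im => rfl
  | .G => rfl

section sw
variable (hβ : D.Adm β)
include hβ

theorem nw_zl (u : List (YL Y)) : nw D.Z (cy β) (u.map D.nk.lt) = fun x => yw D.F β u x.1 := by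
  rw [nw_eq, lt_zl, W_ca hβ]
  exact wd_zl D.F (mcY hβ) (nP β) _

theorem swA_zl (u : List (YL Y)) (a : ℝ) (l : Y → β.m.V) (x : Y × ℝ) :
    dw κ β.m.A (swA D.Z (cy β) (u.map D.nk.lt) (fun x => a • l x.1) x) = a • ywA D.F β u l x.1 := by
  rw [swA, lt_zl, W_ca hβ]
  exact (gc_zl D.F opL (mcY hβ) (nP β) _ (fun y => a • l y) x).trans
    (gc_smul D.F opL (mcY hβ) a _ _ _ _)

theorem swP_zl (u : List (YL Y)) (a : ℝ) (l : Y → β.m.V) (x : Y × ℝ) :
    swP D.Z (cy β) (u.map D.nk.lt) (fun x => a • l x.1) x = a • ywP D.F β u l x.1 := by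
  rw [swP, lt_zl, W_ca hβ]
  refine (congrArg (dn (cy β) · x) ((bk_zl D.F (mcY hβ) _ fun y => a • l y).trans
    (funext fun x => congrFun (bk_smul D.F (mcY hβ) a _ l) x.1))).trans ?_
  show dn β (fun y => a • _) x.1 = a • dn β _ x.1
  simp only [dn, real_inner_smul_right]
  module

variable {T : Pk Y lam} {T' : Pk (Y × ℝ) lam} (hT : ∀ x, pk (cy β) T' x = pk β T x.1)
include hT

theorem tst_zl (v : List (YL Y)) (a : ℝ) :
    (fun y => (a * D.nk.χ y) • pk (cy β) T' y (nw D.Z (cy β) (v.map D.nk.lt) y)) =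
      fun x => a • pk β T x.1 (yw D.F β v x.1) := funext fun x => by
  rw [nk_χ, mul_one, nw_zl hβ, hT]
  rfl

theorem lift_h (u v : List (YL Y)) {δ : ℝ} (t : ℝ) (hδ : 0 < δ) : wn D.Z.μ D.nk.τ δ
    ((dcut D.nk.χ (Den.sw D.Z T' (u.map D.nk.lt) (v.map D.nk.lt))).h (cy β)) t =
      (YF.sw D.F T u v).f β := by
  have h : (dcut D.nk.χ (Den.sw D.Z T' (u.map D.nk.lt) (v.map D.nk.lt))).h (cy β) =
      fun x => ⟪pk β T x.1 (yw D.F β u x.1), yw D.F β v x.1⟫_ℝ := funext fun x => by
    show D.nk.χ x * ⟪pk (cy β) T' x (nw D.Z (cy β) _ x), nw D.Z (cy β) _ x⟫_ℝ = _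
    rw [nk_χ, one_mul, nw_zl hβ, nw_zl hβ, hT]
    rfl
  simp only [h, nk_τ, wn, smul_eq_mul, mul_comm (b _ _)]
  refine (integral_prod_mul (μ := D.F.μ) (ν := volume)
    (fun y => ⟪pk β T y (yw D.F β u y), yw D.F β v y⟫_ℝ) fun s => b δ (s - t)).trans ?_
  rw [integral_sub_right_eq_self (b δ), integral_b hδ, mul_one]
  rfl

theorem lift_A (u v : List (YL Y)) (a : ℝ) (x : Y × ℝ) : dw κ β.m.A
    ((dcut D.nk.χ (Den.sw D.Z T' (u.map D.nk.lt) (v.map D.nk.lt))).gA (cy β) (fun _ => a) x) =
      a • (YF.sw D.F T u v).gA β x.1 := by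
  have h := fun u v => (congrArg (fun l => dw κ β.m.A (swA D.Z (cy β) (List.map D.nk.lt u) l x))
    (tst_zl hβ hT v a)).trans (swA_zl hβ u a (fun z => pk β T z (yw D.F β v z)) x)
  exact (map_add (dw κ β.m.A) _ _).trans
    ((congrArg₂ (· + ·) (h u v) (h v u)).trans (smul_add a _ _).symm)

theorem lift_P (u v : List (YL Y)) (a : ℝ) (x : Y × ℝ) :
    (dcut D.nk.χ (Den.sw D.Z T' (u.map D.nk.lt) (v.map D.nk.lt))).gP (cy β) (fun _ => a) x =
      a • (YF.sw D.F T u v).gP β x.1 := by
  have h := fun u v => (congrArg (fun l => swP D.Z (cy β) (List.map D.nk.lt u) l x)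
    (tst_zl hβ hT v a)).trans (swP_zl hβ u a (fun z => pk β T z (yw D.F β v z)) x)
  exact (congrArg₂ (fun s t : β.m.V => s + t) (h u v) (h v u)).trans (smul_add a _ _).symm

end sw

variable (D) in
/-- **CRIT-LIFT** -/
theorem liftStmt : LiftStmt D := fun _ j hj β hβ => by
  have h1 : ∀ x, pk (cy β) .one x = pk β .one x.1 := fun _ => rfl
  have h2 : ∀ s x, pk (cy β) (.re (D.nk.ext s)) x = pk β (.re s) x.1 := fun s x => by
    rw [nk_ext]; rfl
  have h3 : ∀ s x, pk (cy β) (.im (D.nk.ext s)) x = pk β (.im s) x.1 := fun s x => by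
    rw [nk_ext]; rfl
  match j, hj with
  | .cy c, hj => exact (hj c rfl).elim
  | .sw p, _ => exact ⟨fun _ => lift_h hβ h1 _ _, fun a x =>
      ⟨lift_A hβ h1 _ _ a x, lift_P hβ h1 _ _ a x⟩⟩
  | .re d, _ => exact ⟨fun _ => lift_h hβ (h2 _) _ _, fun a x =>
      ⟨lift_A hβ (h2 _) _ _ a x, lift_P hβ (h2 _) _ _ a x⟩⟩
  | .im d, _ => exact ⟨fun _ => lift_h hβ (h3 _) _ _, fun a x =>
      ⟨lift_A hβ (h3 _) _ _ a x, lift_P hβ (h3 _) _ _ a x⟩⟩

end Crest.Agent.X212.Spn45
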