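import Crest.Agent.X212.Spn45.Exp
import Crest.Agent.X212.Crt72.Three
import Crest.Agent.X212.Lin97.Main

/-!
# Row 212, CRIT-SMI (helper45): neck terms which are linear and small without spinor
-/

set_option autoImplicit false
set_option linter.unusedSectionVars false
noncomputable section
open scoped Manifold ContDiff Topology InnerProductSpace
open MeasureTheory Set Function Filter

namespace Crest.Agent.X212.Spn45
open An Wz78 Cyf70 Dgr80 Nd18 Crt72 Cgr76 Sob92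

/-- `= Nd18.SmI` (same text) -/
def SmI {Y lam : Type} (N : ND Y lam) (R : YDen Y → ℝ) : Prop := ∃ p : N.J0 → ℝ,
  (∀ x : N.J0 → ℝ, (∀ j u v, N.d0 j = .sw u v → x j = 0) → N.φ (x, 0) = ∑ j, p j * x j) ∧
    ∑ j, |p j| * R (N.d0 j) ≤ 1

theorem rp_smi {Bc Bw B2 : Type} {Q : GM Bc Bw B2} (A : Q.AxSm) {q q₀ : Q.Fd} (hq : q ∈ Q.Rl)
    {R : Bc ⊕ Bw → ℝ} (L : Q.Lc (fun j => R (.inl j)) q₀) (e : ∀ o v, Q.PI o v → q o v = q₀ o v)
    (ex : ∀ o v, ∃ v', Q.PI o v' ∧ ∀ c, Q.f (.cy c) o v' = Q.f (.cy c) o v) :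
    ∃ (J0 J2 : Type) (_ : Fintype J0) (_ : Fintype J2) (a : J0 → Bc ⊕ Bw)
      (s : J2 → B2) (φ : (J0 → ℝ) × (J2 → ℂ) → ℝ), ContDiff ℝ ∞ φ ∧
      (∀ (ζ : Circle) x y, φ (x, (ζ : ℂ) • y) = φ (x, y)) ∧
      (∀ o v, q o v = φ (fun j => Q.f (i0 B2 (a j)) o v, fun j => Q.s (s j) o v)) ∧
      ∃ p : J0 → ℝ, (∀ x : J0 → ℝ, (∀ j w, a j = .inr w → x j = 0) → φ (x, 0) = ∑ j, p j * x j) ∧
        ∑ j, |p j| * R (a j) ≤ 1 := by
  obtain ⟨J0, J2, _, _, a, s, φ, p1, p2, p3⟩ := exists_rep hq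
  obtain ⟨T, _, b, p, rfl, h2⟩ := L
  let m : J0 → ℝ := fun j => (a j).elim 1 0
  refine ⟨J0 ⊕ T, J2, inferInstance, inferInstance, Sum.elim a fun j => .inl (b j), s,
    fun z => φ (fun j => z.1 (.inl j), z.2) - φ (fun j => m j * z.1 (.inl j), 0) +
      ∑ j, p j * z.1 (.inr j), by fun_prop, fun ζ x y => by simp only [p2], fun o v => ?_,
    Sum.elim 0 p, fun x hx => ?_, ?_⟩
  · obtain ⟨v', h3, h4⟩ := ex o v
    have h5 := (p3 o v').symm.trans (e o v' h3)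
    have h6 : ∀ j, Q.f (i0 B2 (a j)) o v' = m j * Q.f (i0 B2 (a j)) o v := fun j => by
      simp only [m]
      rcases a j with c | c
      exacts [(h4 c).trans (one_mul _).symm, (A.van (.sw c) o v' (by simp) h3).1.trans
        (zero_mul _).symm]
    have h7 : (fun j => Q.s (s j) o v') = 0 := funext fun j => Complex.ext
      (A.van (.re _) o v' (by simp) h3).1 (A.van (.im _) o v' (by simp) h3).1
    simp only [h6, h7, Finset.sum_apply, Pi.smul_apply, smul_eq_mul, h4] at h5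
    simp only [Sum.elim_inl, Sum.elim_inr, h5, ← p3]
    exact (sub_add_cancel _ _).symm
  · have h3 : ∀ j, m j * x (.inl j) = x (.inl j) := fun j => by
      have := hx (.inl j)
      simp only [m, Sum.elim_inl] at this ⊢
      rcases h : a j with c | c
      exacts [one_mul _, (zero_mul _).trans (this c h).symm]
    simp [h3]
  · simp only [Fintype.sum_sum_type, Sum.elim_inl, Sum.elim_inr, Pi.zero_apply, abs_zero, zero_mul,
      Finset.sum_const_zero, zero_add]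
    exact (Finset.sum_le_sum fun j _ => mul_le_mul_of_nonneg_left (le_abs_self _)
      (abs_nonneg _)).trans h2.le

variable {E3 : Type} [NormedAddCommGroup E3] [NormedSpace ℝ E3] [FiniteDimensional ℝ E3]
  [MeasurableSpace E3] [BorelSpace E3]
  {H3 : Type} [TopologicalSpace H3] {I3 : ModelWithCorners ℝ E3 H3} [I3.Boundaryless]
  {Y : Type} [TopologicalSpace Y] [ChartedSpace H3 Y] [IsManifold I3 ∞ Y] [T2Space Y]
  [MeasurableSpace Y] [BorelSpace Y] [SecondCountableTopology Y] [CompactSpace Y]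
  {κ : Type} [Fintype κ] {lam : Type} [Fintype lam] {D : YD I3 Y κ lam}

/-- cyclic invariants do not see the spinor -/
theorem yf_cy (c : Bc D) {β : YC Y κ lam} (α : Y → Fm κ β.m.A) (φ φ' : Y → β.m.V) :
    (yf D (.cy c)).f (vy β α φ) = (yf D (.cy c)).f (vy β α φ') := by
  have e : (cy (vy β α φ)).la D.Z = (cy (vy β α φ')).la D.Z := funext fun t => by cases t <;> rfl
  have e' : ∀ (d : Cyc79.Cy (Y × ℝ)) w, ((d.sed D.Z).wd D.Z w).s (cy (vy β α φ)) =
      ((d.sed D.Z).wd D.Z w).s (cy (vy β α φ')) := fun d w =>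
    congrArg (fun L => Wrd81.wd L ((d.sed D.Z).s (cy (vy β α φ))) w) e
  exact congrArg₂ (fun u v : Y × ℝ → β.m.A => ∫ y, D.nk.χ (y, 0) * ⟪u (y, 0), v (y, 0)⟫_ℝ ∂D.F.μ)
    (e' _ _) (e' _ _)

variable {k : ℕ} {act : ActT D k} {sf : SfT D}

theorem exists_pi (h : HY D) (hs : ∀ j, Sm1 D j) (hk : 7 ≤ k) (o : XY D) (v : CC D o.1 (k + 1)) :
    ∃ v', (gm D k act sf).PI o v' ∧
      ∀ c, (gm D k act sf).f (.cy c) o v' = (gm D k act sf).f (.cy c) o v := by
  have H : Lin97.Hy D o.1 := ⟨h, o.2⟩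
  let Φ : Sec I3 (pv D o.1) := ⟨o.1.Φ, Lin97.sec_mk H.sm_Φ H.pv_Φ⟩
  refine ⟨(v.1, D.F.toH _ _ (-Φ)), ?_, fun c => ?_⟩
  · change jv D o.1 (k + 1) _ = 0
    rw [H.jv_apply, RepT_toH' (rep_mulH (Cb_const _) fun _ _ => H.pv_J) (-Φ) (-⟨_, H.sec_J⟩)
      (funext fun y => map_neg _ _), map_neg, neg_add_cancel]
    rfl
  · obtain ⟨c1, c2⟩ := Classical.epsilon_spec ((hs (.cy c)).f o.1 o.2 k hk)
    obtain ⟨a, b⟩ := v
    induction a, b using H_ind₂ with
    | hP => exact isClosed_eq (c1.comp (by fun_prop)) (c1.comp (by fun_prop))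
    | h a b => exact (c2 (a, -Φ)).trans ((yf_cy c _ _ _).trans (c2 (a, b)).symm)

theorem exp_smi (h : HY D) (hV : AdmV D) (h3 : Op3 D) (hs : ∀ j, Sm1 D j) (hl : ∀ j, Lift D j)
    {δ : ℝ} (h0 : 0 < δ) (h1 : δ ≤ 1 / 8) (hk : 7 ≤ k) (A : (gm D k act sf).AxOp)
    (A' : (gm D k act sf).AxSm) {q q₀ : (gm D k act sf).Fd} (hq : q ∈ (gm D k act sf).Rl)
    {R : YDen Y → ℝ} (L : (gm D k act sf).Lc (fun j => R (y0 (.inl j))) q₀)
    (e : ∀ o v, (gm D k act sf).PI o v → q o v = q₀ o v) :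
    ∃ N : ND Y lam, Rz D q N ∧ N.δ = δ ∧ SmI N R := by
  classical
  obtain ⟨n, y, y1, y2⟩ := exists_yy D.F.toPre
  obtain ⟨J0, J2, _, _, a, s, φ, p1, p2, p3, p, p4, p5⟩ :=
    rp_smi A' hq (R := fun j => R (y0 j)) L e (exists_pi h hs hk)
  let N : ND Y lam := ⟨J0, J2, fun j => y0 (a j), fun j => (s j).1, φ, δ, n, y⟩
  refine ⟨N, Hz.rz (N := N) (ι := Sum.elim (fun j : J0 => i0 _ (a j))
    (Sum.elim (fun j : J2 => .re (s j)) fun j : J2 => .im (s j)))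
    ⟨h, hV, h3, hs, hl, ?_, fun j => ?_, fun j => (s j).2, p1, p2, h0, h1, y1, y2⟩ hk A A'
    (funext₂ p3), rfl, p, fun x hx => p4 x fun j w e => hx j _ _ (congrArg y0 e), p5⟩
  · rintro (j | j | j)
    · show D.nk.den (y0 (a j)) = den D (i0 _ (a j))
      cases a j <;> rfl
    all_goals rfl
  · show (y0 (a j)).OK D.F
    rcases a j with d | d
    exacts [d.2, d.2]

end Crest.Agent.X212.Spn45
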