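import Crest.Agent.X212.Spn45.Lift

/-!
# Row 212, CRIT-LIFT (helper45): the equations on the cylinder and the gradient on `Y`
-/

set_option autoImplicit false
set_option linter.unusedSectionVars false
noncomputable section
open scoped Manifold ContDiff Topology InnerProductSpace
open MeasureTheory Set Function Filter

namespace Crest.Agent.X212.Spn45
open An Wz78 Cyf70 Dgr80 Nd18 Crt72
open Sob92 (dv)

section sd
variable {E : Type} [NormedAddCommGroup E] [NormedSpace ℝ E] [FiniteDimensional ℝ E]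
  [MeasurableSpace E] [BorelSpace E]
  {HM : Type} [TopologicalSpace HM] {I : ModelWithCorners ℝ E HM}
  {M : Type} [TopologicalSpace M] [ChartedSpace HM M] [IsManifold I ∞ M] [MeasurableSpace M]
  {κ : Type} [Fintype κ] {lam : Type} [Fintype lam] {B : Base M (Option κ) lam}
  {m : Md M (Option κ) lam} {x : M} (hB : B.OK I) (h0 : B.P none none x = 1)
  (h1 : ∀ a, B.P none (some a) x = 0)
include hB

theorem o_five (e a b c d : Option κ) :
    B.P e e x * B.o a b c d x = B.P e a x * B.o e b c d x + B.P e b x * B.o a e c d x +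
      B.P e c x * B.o a b e d x + B.P e d x * B.o a b c e x := by
  obtain ⟨U, h⟩ := b_on hB x
  have h1 := h.vol
  have h2 := h.pr
  simp only [h1, ← h2, Wz78.vol, Ind95.E4_eq, Fin.sum_univ_four]
  ring

theorem p2_sw (ξ : Fm (Option κ × Option κ) m.A) (a b : Option κ) :
    m.p2 B x ξ (a, b) = -m.p2 B x ξ (b, a) := by
  have h := fun t => sd_swap hB x (b, a) t
  simp only [Prod.swap_prod_mk] at h
  simp only [Md.p2, idx_apply, h, neg_smul, Finset.sum_neg_distrib]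

include h1 in
theorem p2_row (ξ : Fm (Option κ × Option κ) m.A) (a : κ) :
    ∑ b, B.P (some a) (some b) x • m.pg x (m.p2 B x ξ (none, some b)) =
      m.p2 B x ξ (none, some a) := by
  have h : ∀ t, ∑ k, B.P (some a) k x * B.sd x (none, k) t = B.sd x (none, some a) t := fun t => by
    simp only [Base.sd, Base.a2, Base.st, ← mul_div_assoc, ← Finset.sum_div, mul_add, mul_sub,
      Finset.sum_add_distrib, Finset.sum_sub_distrib, oP2 hB, mul_left_comm (B.P (some a) _ x),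
      ← Finset.mul_sum, (hB.pr x).idem]
  simp only [Fintype.sum_option, ((hB.pr x).symm _ _).trans (h1 a), zero_mul, zero_add] at h
  simp only [pg_of_mem (p2_mem _ _)]
  simp only [Md.p2, idx_apply, Finset.smul_sum, smul_smul]
  rw [Finset.sum_comm]
  simp only [← Finset.sum_smul, h]

include h0 h1

theorem dt_row {d : Option κ → ℝ} (hd : ∀ f : Option κ → m.A, ∑ a, d a • f a = f none)
    (g : Fm (Option κ) m.A) (a : κ) :
    m.p2 B x (WithLp.toLp 2 fun s => d s.1 • g s.2) (none, some a) =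
      (1 / 4 : ℝ) • ∑ b, B.P (some a) (some b) x • m.pg x (g (some b)) := by
  have o1 : ∀ b, B.o none (some a) none b x = 0 := fun b => by
    linarith [hB.o23 none (some a) none b x, hB.o12 none none (some a) b x]
  have h2 := ((hB.pr x).symm _ _).trans (h1 a)
  rw [Md.p2, idx_apply, Fintype.sum_prod_type, Finset.sum_comm]
  simp only [map_smul, smul_comm _ (d _), hd]
  simp only [Fintype.sum_option, Base.sd, Base.a2, Base.st, o1, h0, h1, Finset.smul_sum, smul_smul]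
  simp only [show B.P (some a) none x = 0 from h2, mul_zero, sub_self, zero_div, add_zero, zero_smul,
    zero_add]
  exact Finset.sum_congr rfl fun b _ => by congr 1; ring

theorem inner_st {A : Type} [NormedAddCommGroup A] [InnerProductSpace ℝ A]
    {η : Fm (Option κ × Option κ) A} (sw : ∀ a b, η (a, b) = -η (b, a)) :
    ⟪η, idx (B.st x) (ContinuousLinearMap.id ℝ A) η⟫_ℝ =
      4 * ∑ b, ⟪η (none, b), idx (B.st x) (ContinuousLinearMap.id ℝ A) η (none, b)⟫_ℝ := by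
  classical
  set X := ∑ b, ∑ k, ∑ l, B.o none b k l x * ⟪η (none, b), η (k, l)⟫_ℝ with hX
  have hP : ∀ a, B.P none a x = if a = none then 1 else 0 := fun a => by cases a <;> simp [h0, h1]
  have o5 := fun a b k l => o_five hB (x := x) none a b k l
  simp only [hP, if_true, one_mul] at o5
  have e0 : ∀ s, ⟪η s, idx (B.st x) (ContinuousLinearMap.id ℝ A) η s⟫_ℝ =
      (∑ k, ∑ l, B.o s.1 s.2 k l x * ⟪η s, η (k, l)⟫_ℝ) / 2 := fun s => by
    simp only [idx_apply, inner_sum, real_inner_smul_right, Base.st,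
      Fintype.sum_prod_type, Finset.sum_div, ContinuousLinearMap.id_apply]
    exact Finset.sum_congr rfl fun _ _ => Finset.sum_congr rfl fun _ _ => by ring
  have e1 : ∑ a, ∑ k, ∑ l, B.o a none k l x * ⟪η (a, none), η (k, l)⟫_ℝ = X := by
    simp only [hX, fun a => sw a none, fun a k l => hB.o12 a none k l x, inner_neg_left, neg_mul_neg]
  have e2 : ∑ a, ∑ b, ∑ l, B.o a b none l x * ⟪η (a, b), η (none, l)⟫_ℝ = X := by
    rw [hX, Finset.sum_congr rfl fun a _ => Finset.sum_comm, Finset.sum_comm]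
    simp only [fun a b l => o_pair hB a b none l x, real_inner_comm (η (none, _))]
  have e3 : ∑ a, ∑ b, ∑ k, B.o a b k none x * ⟪η (a, b), η (k, none)⟫_ℝ = X := by
    simp only [← e2, fun a => sw a none, fun a b k => hB.o34 a b k none x, inner_neg_right,
      neg_mul_neg]
  rw [PiLp.inner_apply, Fintype.sum_prod_type]
  simp only [e0, ← Finset.sum_div, ← hX]
  rw [Finset.sum_congr rfl fun a _ => Finset.sum_congr rfl fun b _ =>
    Finset.sum_congr rfl fun k _ => Finset.sum_congr rfl fun l _ => by rw [o5 a b k l]]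
  simp only [add_mul, Finset.sum_add_distrib, ite_mul, one_mul, zero_mul, Finset.sum_ite_eq',
    Finset.mem_univ, if_true, Finset.sum_ite_irrel, Finset.sum_const_zero, e1, e2, e3, ← hX]
  ring

theorem norm_p2 (ξ : Fm (Option κ × Option κ) m.A) :
    ‖m.p2 B x ξ‖ ^ 2 = 4 * ∑ a, ‖m.p2 B x ξ (none, some a)‖ ^ 2 := by
  have h := inner_st hB h0 h1 (p2_sw hB (x := x) ξ)
  have h2 : idx (B.st x) (ContinuousLinearMap.id ℝ m.A) (m.p2 B x ξ) = m.p2 B x ξ := by
    simp only [Md.p2, idx_idx, st_sd hB]; rfl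
  have h3 : m.p2 B x ξ (none, none) = 0 :=
    (smul_eq_zero_iff_right (two_ne_zero' ℝ)).1 (by
      rw [two_smul]; exact eq_neg_iff_add_eq_zero.1 (p2_sw hB ξ none none))
  rw [h2, Fintype.sum_option, h3, inner_zero_left, zero_add] at h
  simpa only [real_inner_self_eq_norm_sq] using h

end sd

variable {E3 : Type} [NormedAddCommGroup E3] [NormedSpace ℝ E3] [FiniteDimensional ℝ E3]
  [MeasurableSpace E3] [BorelSpace E3]
  {H3 : Type} [TopologicalSpace H3] {I3 : ModelWithCorners ℝ E3 H3} [I3.Boundaryless]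
  {Y : Type} [TopologicalSpace Y] [ChartedSpace H3 Y] [IsManifold I3 ∞ Y] [T2Space Y]
  [MeasurableSpace Y] [BorelSpace Y] [SecondCountableTopology Y] [CompactSpace Y]
  {κ : Type} [Fintype κ] {lam : Type} [Fintype lam] {D : YD I3 Y κ lam} {β : YC Y κ lam}

theorem dv_t {N : Type} [NormedAddCommGroup N] [NormedSpace ℝ N] (s : Y → N) (a : Option κ)
    (x : Y × ℝ) : dv (IC I3) (D.Z.e a) (fun x => s x.1) x =
      dv (IC I3) (D.Z.e a) (fun x => s x.1) (x.1, 0) :=
  (congrFun (dv_fst s a) x).trans (Eq.trans (by cases a <;> rfl) (congrFun (dv_fst s a) _).symm)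

theorem eD_t (x : Y × ℝ) : (cy β).eD D.G pt0 x = (cy β).eD D.G pt0 (x.1, 0) :=
  congrArg (fun v : β.m.V => v - 0) (Finset.sum_congr rfl fun a _ => congrArg (β.m.ρ a x.1)
    (congrArg (· + β.W a x.1 (β.Φ x.1)) (dv_t β.Φ a x)))

theorem Fg_t (x : Y × ℝ) : (cy β).m.Fg D.Z (cy β).W x = (cy β).m.Fg D.Z (cy β).W (x.1, 0) :=
  PiLp.ext fun s => congrArg (fun T => β.m.pg x.1 (hsL T)) (congrArg₂ (· - ·)
    (congrArg (· + _) (congrArg₂ (· - ·) (dv_t (β.W s.2) s.1 x) (dv_t (β.W s.1) s.2 x)))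
    (Finset.sum_congr rfl fun k _ => congrArg (· • β.W k x.1)
      (by rcases s with ⟨_ | _, _ | _⟩ <;> cases k <;> rfl)))

theorem p2_t (x : Y × ℝ) : (cy β).m.p2 D.B x = (cy β).m.p2 D.B (x.1, 0) := by
  have h : ∀ a b, D.B.P a b x = D.B.P a b (x.1, 0) := fun a b => by cases a <;> cases b <;> rfl
  refine congrArg (idx · (β.m.pg x.1)) (funext₂ fun s t => ?_)
  simp only [Base.sd, Base.a2, h]
  rfl

theorem eC_t (x : Y × ℝ) : (cy β).eC D.B D.G pt0 x = (cy β).eC D.B D.G pt0 (x.1, 0) := by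
  have h := Fg_t (D := D) (β := β) x
  simp only [Cfg.eC, Md.mu]
  rw [p2_t x]
  exact congrArg (fun F => (cy β).m.p2 D.B (x.1, 0) F - _ - _) h

theorem Fg_none (hβ : D.Adm β) (x : Y × ℝ) (b : Option κ) :
    (cy β).m.Fg D.Z (cy β).W x (none, b) = 0 := by
  have h0 : (cy β).W none = fun _ => 0 := funext fun x => hβ.tmp x.1
  have h1 : dv (IC I3) (D.Z.e none) ((cy β).W b) x = 0 :=
    congrFun (dv_fst (e := D.F.e) (β.W b) none) x
  have h2 : ∀ k, D.Z.c none b k x = 0 := fun k => by cases b <;> rfl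
  show (cy β).m.pg x (hsL (curv (IC I3) D.Z.e D.Z.c (cy β).W none b x)) = 0
  simp [curv, h0, h1, h2]

theorem p1_up {y : Y} {α : Fm κ β.m.A} (h : pc D β y α = α) (t : ℝ) :
    (cy β).m.p1 D.B (y, t) (up κ _ α) = up κ _ α := PiLp.ext fun a => by
  refine (idx_apply _ _ _ _).trans ?_
  rw [Fintype.sum_option]
  cases a with
  | none =>
    show (1 : ℝ) • β.m.pg y 0 + ∑ b, (0 : ℝ) • β.m.pg y (α b) = 0
    simp
  | some a =>
    show (0 : ℝ) • β.m.pg y 0 + ∑ b, D.F.P a b y • β.m.pg y (α b) = α a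
    rw [zero_smul, zero_add]
    exact (idx_apply _ _ _ a).symm.trans (congrArg (· a) h)

theorem pc_dw (x : Y × ℝ) (g : Fm (Option κ) β.m.A) (a : κ) : pc D β x.1 (dw κ _ g) a =
    ∑ b, D.B.P (some a) (some b) x • β.m.pg x.1 (g (some b)) := idx_apply _ _ _ _

variable (h : D.OK) (hβ : D.Adm β)
include h

theorem norm_Fg (hβ : D.Adm β) (x : Y × ℝ) : ‖(cy β).m.Fg D.Z (cy β).W x‖ ^ 2 =
    8 * ∑ a, ‖(cy β).m.p2 D.B x ((cy β).m.Fg D.Z (cy β).W x) (none, some a)‖ ^ 2 := by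
  have h1 := inner_st h.B (x := x) rfl (fun _ => rfl) (η := (cy β).m.Fg D.Z (cy β).W x)
    fun a b => Fg_swap h.G hβ.adm.conn (b, a)
  have h2 := norm_Fg_sq h.G hβ.adm.conn (x := x) h.B
  simp only [Fg_none hβ, inner_zero_left, Finset.sum_const_zero, mul_zero] at h1
  rw [norm_p2 h.B rfl fun _ => rfl, Md.kd] at h2
  refine h2.trans ?_
  erw [h1]
  exact (by intros; ring : ∀ s c e : ℝ, 2 * (4 * s) + c * (e * 0) = 8 * s) _ _ _

theorem p2_eC0 (x : Y × ℝ) :
    (cy β).m.p2 D.B x ((cy β).eC D.B D.G pt0 x) = (cy β).eC D.B D.G pt0 x := by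
  simp only [Cfg.eC, Md.mu, pt0, map_sub, p2_p2 h.B, map_zero, Pi.zero_apply]

theorem pc_z0 (y : Y) : pc D β y ((YF.z0 D).gA β y) = (YF.z0 D).gA β y := PiLp.ext fun a => by
  have h1 := p2_row h.B (x := (y, 0)) (fun _ => rfl) ((cy β).eC D.B D.G pt0 (y, 0)) a
  rw [p2_eC0 h] at h1
  refine (idx_apply _ _ _ _).trans (Eq.trans ?_ (congrArg ((1 / 2 : ℝ) • ·) h1))
  refine Eq.trans ?_ (Finset.smul_sum (M := ℝ) (N := β.m.A)).symm
  exact Finset.sum_congr rfl fun b _ =>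
    (congrArg (D.F.P a b y • ·) (map_smul (β.m.pg y) _ _)).trans (smul_comm _ _ _)

variable {J : Type} [Fintype J] [DecidableEq J] (Q : DG (Y × ℝ) (Option κ) lam 0 J)
  (hτ : Q.τ = Prod.snd)

theorem p2_eC (x : Y × ℝ) : (cy β).m.p2 D.B x ((cy β).eC D.B D.G (Q.q1 (n := 0) D.B D.Z) x) =
    (cy β).eC D.B D.G (Q.q1 (n := 0) D.B D.Z) x := by
  simp only [Cfg.eC, Md.mu, DG.q1, map_sub, p2_p2 h.B, map_smul]

theorem eC_zero {x : Y × ℝ}
    (h1 : ∀ a, (cy β).eC D.B D.G (Q.q1 (n := 0) D.B D.Z) x (none, some a) = 0) :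
    (cy β).eC D.B D.G (Q.q1 (n := 0) D.B D.Z) x = 0 := by
  have h2 := norm_p2 h.B (x := x) rfl (fun _ => rfl) ((cy β).eC D.B D.G (Q.q1 (n := 0) D.B D.Z) x)
  simpa [p2_eC h, h1] using h2

include hτ

theorem eC_row (x : Y × ℝ) (a : κ) :
    (cy β).eC D.B D.G (Q.q1 (n := 0) D.B D.Z) x (none, some a) = (2 : ℝ) •
      (pc D β x.1 ((YF.z0 D).gA β x.1) a + pc D β x.1 (dw κ β.m.A (Q.gA D.Z (cy β) x)) a) := by
  have h1 := dt_row (m := (cy β).m) h.B (x := x) rfl (fun _ => rfl) (fun f => sum_dt (D := D) f x)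
    (Q.gA D.Z (cy β) x) a
  have h2 : (cy β).eC D.B D.G (Q.q1 (n := 0) D.B D.Z) x = (cy β).eC D.B D.G pt0 x + (8 : ℝ) •
      (cy β).m.p2 D.B x (WithLp.toLp 2 fun s => D.Z.D s.1 Prod.snd x • Q.gA D.Z (cy β) x s.2) := by
    simp only [Cfg.eC, DG.q1, pt0, hτ, neg_smul, sub_neg_eq_add, Pi.zero_apply, sub_zero]
  rw [h2, eC_t, PiLp.add_apply, PiLp.smul_apply, h1, pc_z0 h, pc_dw]
  exact (by intros; module : ∀ u v : β.m.A, u + (8 : ℝ) • (1 / 4 : ℝ) • v =
    (2 : ℝ) • ((1 / 2 : ℝ) • u + v)) _ _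

omit h in
theorem eD_eq (x : Y × ℝ) : (cy β).eD D.G (Q.q1 (n := 0) D.B D.Z) x = (cy β).eD D.G pt0 x +
    (cy β).m.ρ none x ((cy β).m.pp D.B x (Q.gP D.Z (cy β) x)) := by
  simp only [Cfg.eD, DG.q1, pt0, hτ, sub_neg_eq_add, Pi.zero_apply, sub_zero, sum_dt]

include hβ

omit h hτ in
theorem rho_sq (x : Y × ℝ) (v : (cy β).m.V) :
    (cy β).m.ρ none x ((cy β).m.ρ none x v) = -(cy β).m.p x v := by
  have h1 := congrArg (fun T : En _ => T v) ((hβ.adm.ok.cl x).rel none none)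
  have h2 : D.B.P none none x = 1 := rfl
  simp only [h2, _root_.add_apply, mul_apply_eq_comp, smul_apply] at h1
  exact (smul_right_injective _ (two_ne_zero' ℝ)) (by
    simp only [two_smul]; rw [h1]; module)

theorem eD_row (x : Y × ℝ) : -β.m.ρ none x.1 ((cy β).eD D.G (Q.q1 (n := 0) D.B D.Z) x) =
    pv D β x.1 ((YF.z0 D).gP β x.1) + pv D β x.1 (Q.gP D.Z (cy β) x) := by
  have H := hβ.adm.ok
  have h1 := dir_pp h.B H hβ.adm.conn (hβ.adm.sm x)
  simp only [hβ.adm.pos] at h1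
  have h2 : (cy β).m.pp D.B x ((cy β).m.ρ none x ((cy β).eD D.G pt0 x)) =
      (cy β).m.ρ none x ((cy β).eD D.G pt0 x) := by
    simp only [Cfg.eD, pt0, Pi.zero_apply, sub_zero]
    rw [← mul_apply_eq_comp, pp_rho h.B H, mul_apply_eq_comp, ← h1]
  show -(cy β).m.ρ none x _ = (cy β).m.pp D.B x (-(cy β).m.ρ none x ((cy β).eD D.G pt0 (x.1, 0))) +
    (cy β).m.pp D.B x (Q.gP D.Z (cy β) x)
  rw [← eD_t, eD_eq Q hτ, map_add, rho_sq hβ, Eqv71.p_pp H, map_neg, h2, neg_add, neg_neg]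

omit h in
theorem eD_zero {x : Y × ℝ}
    (h1 : -β.m.ρ none x.1 ((cy β).eD D.G (Q.q1 (n := 0) D.B D.Z) x) = 0) :
    (cy β).eD D.G (Q.q1 (n := 0) D.B D.Z) x = 0 := by
  have h2 := rho_sq hβ x ((cy β).eD D.G (Q.q1 (n := 0) D.B D.Z) x)
  have h3 : ∀ a v, (cy β).m.p x ((cy β).m.ρ a x v) = (cy β).m.ρ a x v := fun a v =>
    congrArg (fun T : En _ => T v) ((hβ.adm.ok.cl x).pl a)
  rw [show (cy β).m.ρ none x _ = 0 from neg_eq_zero.1 h1, map_zero, eq_comm, neg_eq_zero] at h2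
  rw [← h2, eD_eq Q hτ]
  simp only [Cfg.eD, pt0, Pi.zero_apply, sub_zero, dir, map_add, map_sum, h3]

end Crest.Agent.X212.Spn45
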