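import Crest.Agent.X212.Spn45.Conn

/-!
# X212 / SPIN (helper45), file Aff: the affine space of admissible connections; bounds for `can`
-/

set_option autoImplicit false
set_option linter.unusedSectionVars false

open scoped Manifold ContDiff Topology InnerProductSpace
open Finset Filter

noncomputable section
namespace Crest.Agent.X212.Spn45
open An Sob92 Wz78
open Std94 (Kl pmx plx hs cbK)

variable {E : Type} [NormedAddCommGroup E] [NormedSpace ℝ E] [FiniteDimensional ℝ E]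
  [MeasurableSpace E] [BorelSpace E]
  {HM : Type} [TopologicalSpace HM] {I : ModelWithCorners ℝ E HM}
  {M : Type} [TopologicalSpace M] [ChartedSpace HM M] [IsManifold I ∞ M]
  [MeasurableSpace M] {ι : Type} [Fintype ι] {lam : Type} [Fintype lam]
  {m : Md M ι lam} {B : Base M ι lam} {G : Geo I M ι lam} {W W' : m.Cn} {x : M}

theorem isConn_add (C : m.IsConn B G W) {β : m.Cn} (hβ : Con I B.P β) (sk : ∀ a x, Skw (β a x))
    (hp : ∀ a x, β a x * m.p x = m.p x * β a x) (hρ : ∀ a b x, β a x * m.ρ b x = m.ρ b x * β a x)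
    (hJ : ∀ a x, m.J * β a x = β a x * m.J) (hj : ∀ a x s, β a x * m.j x s = m.j x s * β a x) :
    m.IsConn B G (W + β) :=
  ⟨C.cc.addA hβ hp hρ, fun a x => (skS m.V).add_mem (C.sk a x) (sk a x),
    fun a x => by simp only [Pi.add_apply, mul_add, add_mul, C.J, hJ],
    fun a x s => by
      simp only [Pi.add_apply, mul_add, add_mul, hj, add_sub_add_right_eq_sub, C.j]⟩

theorem p1_iff {α : Fm ι m.A} : m.p1 B x α = α ↔
    (∀ a, α a ∈ m.gS x) ∧ ∀ a, ∑ b, B.P a b x • α b = α a := by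
  constructor
  · intro h
    have h1 : ∀ a, α a ∈ m.gS x := fun a => by
      rw [← h, Md.p1, idx_apply]
      exact (m.gS x).sum_mem fun b _ => (m.gS x).smul_mem _ (pg_mem x _)
    refine ⟨h1, fun a => ?_⟩
    conv_rhs => rw [← h, Md.p1, idx_apply]
    simp only [fun b => pg_of_mem (h1 b)]
  · rintro ⟨h1, h2⟩
    ext1 a
    simp only [Md.p1, idx_apply, fun b => pg_of_mem (h1 b), h2]

/-- adding a smooth `g`-valued one-form -/
theorem isConn_addC (H : m.OK I B) (C : m.IsConn B G W) {α : M → Fm ι m.A}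
    (sα : Sm I α) (h : ∀ x, m.p1 B x (α x) = α x) : m.IsConn B G (m.addC W α) := by
  have h1 := fun x => (p1_iff.1 (h x)).1
  exact isConn_add C (β := fun a x => opL (α x a))
    ⟨fun a x => SA.clm opL (SA.clm (PiLp.proj 2 (fun _ : ι => m.A) a) (sα x)), fun a x => by
      simp only [← map_smul, ← map_sum, (p1_iff.1 (h x)).2]⟩
    (fun a x => g_skw (h1 x a)) (fun a x => by rw [g_p' H (h1 x a), g_p (h1 x a)])
    (fun a b x => (g_ρ (h1 x a) b).symm) (fun a x => g_J (h1 x a))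
    fun a x s => (g_j (h1 x a) s).symm

variable (m) in
/-- the `g`-valued difference of two connections -/
def dif (W W' : m.Cn) (x : M) : Fm ι m.A :=
  WithLp.toLp 2 fun a => hsL (m.p x * (W' a x - W a x))

theorem dif_apply (a : ι) : dif m W W' x a = hsL (m.p x * (W' a x - W a x)) := rfl

theorem dif_addC {α : M → Fm ι m.A} (h : ∀ a, α x a ∈ m.gS x) : dif m W (m.addC W α) x = α x := by
  ext1 a
  rw [dif_apply, Md.addC, add_sub_cancel_left, g_p (h a), hsL_opL]

theorem p_addC_dif (H : m.OK I B) (a : ι) :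
    m.p x * m.addC W (dif m W W') a x = m.p x * W' a x := by
  rw [Md.addC, dif_apply, opL_hsL, mul_add, ← mul_assoc, H.pidem, mul_sub, add_sub_cancel]

section two
variable (C : m.IsConn B G W) (C' : m.IsConn B G W')
include C C'

theorem sub_p (a : ι) (x : M) : (W' a x - W a x) * m.p x = m.p x * (W' a x - W a x) := by
  have := (C'.cc.par a x).trans (C.cc.par a x).symm
  rw [add_right_inj] at this
  rw [sub_mul, mul_sub, sub_eq_iff_eq_add.1 this]; abel

theorem sub_j (a : ι) (x : M) (s : Eu lam) :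
    (W' a x - W a x) * m.j x s = m.j x s * (W' a x - W a x) := by
  have := (C'.j a x s).trans (C.j a x s).symm
  rw [add_right_inj] at this
  rw [sub_mul, mul_sub, sub_eq_iff_eq_add.1 this]; abel

theorem sub_J (a : ι) (x : M) : m.J * (W' a x - W a x) = (W' a x - W a x) * m.J := by
  rw [mul_sub, sub_mul, C.J, C'.J]

theorem dif_mem (H : m.OK I B) (x : M) (a : ι) : dif m W W' x a ∈ m.gS x := by
  have hp := sub_p C C' a x
  refine mem_g ?_ (by rw [← mul_assoc, H.pidem]) ?_ (fun b => ?_) fun s => ?_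
  · rw [← hp]
    exact Sk.mul_sy ((skS m.V).sub_mem (C'.sk a x) (C.sk a x)) (H.psym x) hp
  · rw [← mul_assoc, H.Jp, mul_assoc, sub_J C C', mul_assoc]
  · rw [← mul_assoc, (H.cl x).pr, mul_assoc, C'.cc.sub_comm C.cc, ← mul_assoc, (H.cl x).pl]
  · rw [← mul_assoc, PM.jp (pmx H x), mul_assoc, sub_j C C', ← mul_assoc, H.pj]

theorem p1_dif (H : m.OK I B) (x : M) : m.p1 B x (dif m W W' x) = dif m W W' x :=
  p1_iff.2 ⟨dif_mem C C' H x, fun a => by
    simp only [dif_apply, ← map_smul, ← map_sum, ← mul_smul_comm, ← mul_sum, smul_sub,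
      sum_sub_distrib, C.cc.proj, C'.cc.proj]⟩

omit C in
/-- connections which agree on the bundle are equivalent by the projector -/
theorem par_p (hB : B.OK I) (h : ∀ a x, m.p x * W a x = m.p x * W' a x) :
    Par G.F W W' Set.univ id (fun x b a => B.P b a x) m.p := fun x _ a => by
  have e : ∑ b, B.P b a x • W' b x = W' a x := by
    simp only [← C'.cc.proj a x, (hB.pr x).symm a]
  change G.F.D a m.p x + (∑ b, B.P b a x • W' b x) * m.p x - m.p x * W a x = 0
  rw [e, h, add_sub_assoc]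
  exact C'.cc.par a x

end two

/-! ### classes of functions -/

section kl
variable {X : Type} {K : Kl X} {φ : X → M}

variable (K) in
/-- the class as a submodule -/
def klS (N : Type) [NormedAddCommGroup N] [NormedSpace ℝ N] : Submodule ℝ (X → N) where
  carrier := {f | K.mem f}
  zero_mem' := K.const 0
  add_mem' := K.add
  smul_mem' c _ h := Kl.csmul c h

theorem kl_omG {V : Type} [NormedAddCommGroup V] [NormedSpace ℝ V] {ρ θ : ι → X → V →L[ℝ] V}
    (hρ : ∀ a, K.mem (ρ a)) (hθ : ∀ a, K.mem (θ a)) :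
    K.mem fun t => omG (fun b => ρ b t) fun b => θ b t := by
  have := omG_mem (ρ := ρ) (θ := θ) (klS K (V →L[ℝ] V))
    (fun a T hT => Kl.mulL (Kl.mulL (hρ a) hT) (hρ a))
    ((klS K _).sum_mem fun a _ => Kl.mulL (hρ a) (hθ a))
  simp only [← omG_apply]
  exact this

theorem kl_Gam {F : X → Fr I M ι} (hD : ∀ a b k, K.mem fun t => (F t).D a ((F t).P b k) (φ t))
    (hc : ∀ a b k, K.mem fun t => (F t).c a b k (φ t)) (a b k : ι) :
    K.mem fun t => (F t).Gam a b k (φ t) := by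
  simp only [Fr.Gam, div_eq_mul_inv]
  exact Kl.mul (Kl.sub (Kl.sub (K.add (Kl.sub (K.add (hD _ _ _) (hD _ _ _)) (hD _ _ _)) (hc _ _ _))
    (hc _ _ _)) (hc _ _ _)) (K.const _)

theorem kl_w2 {V : Type} [NormedAddCommGroup V] [InnerProductSpace ℝ V]
    {e : X → ι → (x : M) → TangentSpace I x} {Γ : X → ι → ι → ι → M → ℝ} {p : M → V →L[ℝ] V}
    {ρ : ι → M → V →L[ℝ] V} (hp : K.mem fun t => p (φ t)) (hρ : ∀ a, K.mem fun t => ρ a (φ t))
    (dp : ∀ a, K.mem fun t => dv I (e t a) p (φ t))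
    (dρ : ∀ a b, K.mem fun t => dv I (e t a) (ρ b) (φ t))
    (hΓ : ∀ a b k, K.mem fun t => Γ t a b k (φ t)) (a : ι) :
    K.mem fun t => w2 I (e t) (Γ t) p ρ a (φ t) := by
  have h1 : K.mem fun t => w1 I (e t) p a (φ t) := Kl.sub (Kl.mulL hp (dp a)) (Kl.mulL (dp a) hp)
  exact K.add h1 (kl_omG hρ fun b => Kl.sub (K.add (dρ a b)
    (Kl.sub (Kl.mulL h1 (hρ b)) (Kl.mulL (hρ b) h1))) (Kl.fsum _ fun k => Kl.smul (hΓ a b k) (hρ k)))

theorem kl_cw {G : X → Geo I M ι lam} {W : X → m.Cn} {a : ι} (hW : K.mem fun t => W t a (φ t))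
    (hj : K.mem fun t => m.j (φ t)) (dj' : K.mem fun t => (G t).F.D a m.j (φ t))
    (ha : K.mem fun t => (G t).a a (φ t)) : K.mem fun t => cw m (G t) (W t) a (φ t) := by
  simp only [cw, dj_apply]
  exact Kl.sub hW (Kl.csmul _ (Kl.fsum _ fun b => Kl.mulL (Kl.sub (K.add (Kl.appc dj' _)
    (Kl.sub (Kl.mulL hW (Kl.appc hj _)) (Kl.mulL (Kl.appc hj _) hW))) (K.app hj (Kl.appc ha _)))
    (Kl.appc hj _)))

/-- the canonical connection is a polynomial in the first jets of the data -/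
theorem kl_can {G : X → Geo I M ι lam} (hp : K.mem fun t => m.p (φ t))
    (hρ : ∀ a, K.mem fun t => m.ρ a (φ t)) (hj : K.mem fun t => m.j (φ t))
    (dp : ∀ a, K.mem fun t => (G t).F.D a m.p (φ t))
    (dρ : ∀ a b, K.mem fun t => (G t).F.D a (m.ρ b) (φ t))
    (dj' : ∀ a, K.mem fun t => (G t).F.D a m.j (φ t))
    (hΓ : ∀ a b k, K.mem fun t => (G t).F.Gam a b k (φ t))
    (ha : ∀ a, K.mem fun t => (G t).a a (φ t)) (a : ι) : K.mem fun t => can m (G t) a (φ t) :=
  kl_cw (kl_w2 (e := fun t => (G t).F.e) hp hρ dp dρ hΓ a) hj (dj' a) (ha a)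

theorem kl_dif {W W' : X → m.Cn} (hp : K.mem fun t => m.p (φ t))
    (hW : ∀ a, K.mem fun t => W t a (φ t)) (hW' : ∀ a, K.mem fun t => W' t a (φ t)) :
    K.mem fun t => dif m (W t) (W' t) (φ t) := by
  classical
  have e : ∀ t, dif m (W t) (W' t) (φ t) = ∑ a,
      ((PiLp.continuousLinearEquiv 2 ℝ fun _ : ι => m.A).symm.toContinuousLinearMap ∘L
        ContinuousLinearMap.single ℝ (fun _ : ι => m.A) a)
        (hsL (m.p (φ t) * (W' t a (φ t) - W t a (φ t)))) := fun t => by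
    ext1 a
    simp [dif_apply, Pi.single_apply, Finset.sum_apply]
  simp only [e]
  exact Kl.fsum _ fun a => Kl.clm _ (Kl.clm hsL (Kl.mulL hp (Kl.sub (hW' a) (hW a))))

end kl

theorem sm_dif (H : m.OK I B) (C : m.IsConn B G W) (C' : m.IsConn B G W') : Sm I (dif m W W') :=
  kl_dif (K := Std94.smAll I) (φ := id) (W := fun _ => W) (W' := fun _ => W') H.sp C.cc.sm C'.cc.sm

theorem cb_Gam {F : Fr I M ι} (hP : ∀ a b, F.Cb (F.P a b)) (hc : ∀ a b k, F.Cb (F.c a b k))
    (a b k : ι) : F.Cb (F.Gam a b k) :=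
  kl_Gam (K := cbK F.toPre) (φ := id) (F := fun _ => F) (fun a b k => Cb_D (hP b k) a) hc a b k

theorem cb_can (hΓ : ∀ a b k, G.F.Cb (G.F.Gam a b k)) (ha : ∀ a, G.F.Cb (G.a a)) (hp : G.F.Cb m.p)
    (hρ : ∀ a, G.F.Cb (m.ρ a)) (hj : G.F.Cb m.j) (a : ι) : G.F.Cb (can m G a) :=
  kl_can (K := cbK G.F.toPre) (φ := id) (G := fun _ => G) hp hρ hj (Cb_D hp) (fun a b => Cb_D (hρ b) a)
    (Cb_D hj) hΓ ha a

/-- every admissible connection is `W + α` up to the equivalence `p` -/
theorem exists_addC (hB : B.OK I) (H : m.OK I B) (C : m.IsConn B G W) (C' : m.IsConn B G W') :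
    ∃ α : M → Fm ι m.A, Sm I α ∧ (∀ x, m.p1 B x (α x) = α x) ∧ m.IsConn B G (m.addC W α) ∧
      (∀ a x, m.p x * m.addC W α a x = m.p x * W' a x) ∧
      Par G.F (m.addC W α) W' Set.univ id (fun x b a => B.P b a x) m.p :=
  ⟨dif m W W', sm_dif H C C', p1_dif C C' H,
    isConn_addC H C (sm_dif H C C') (p1_dif C C' H), fun a _ => p_addC_dif H a,
    par_p C' hB fun a _ => p_addC_dif H a⟩

end Crest.Agent.X212.Spn45
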