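import Crest.Agent.X212.Spn45.Aff
import Crest.Agent.X212.Mod61.Fmt

/-!
# X212 / SPIN (helper45), file Fam: change of the background, the fields `cf, la` of `Mod61.Fam`
-/

set_option autoImplicit false
set_option linter.unusedSectionVars false

open scoped Manifold ContDiff Topology InnerProductSpace
open Finset Filter

noncomputable section
namespace Crest.Agent.X212.Spn45
open An Sob92 Wz78 Prm93
open Std94 (Kl pmx plx hs cbK)

variable {E : Type} [NormedAddCommGroup E] [NormedSpace ℝ E] [FiniteDimensional ℝ E]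
  [MeasurableSpace E] [BorelSpace E]
  {HM : Type} [TopologicalSpace HM] {I : ModelWithCorners ℝ E HM}
  {M : Type} [TopologicalSpace M] [ChartedSpace HM M] [IsManifold I ∞ M]
  [MeasurableSpace M] {ι : Type} [Fintype ι] {lam : Type} [Fintype lam]
  {m : Md M ι lam} {B : Base M ι lam} {G G' : Geo I M ι lam} {W : m.Cn} {x : M}
  {S : M → ι → ι → ℝ}

/-- the spin part of the change of the frame -/
def cf0 (F F' : Fr I M ι) (S : M → ι → ι → ℝ) (x : M) (a b k : ι) : ℝ :=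
  (1 / 4) * dG (fun a b x => S x a b) F.Gam F'.Gam a b k x

/-- the central part of the change of the background -/
def la0 (B : Base M ι lam) (G G' : Geo I M ι lam) (S : M → ι → ι → ℝ) (x : M) (a : ι) : ℝ :=
  (1 / 4) * hs (B.il * B.l x) (G'.a a x - ∑ b, S x a b • G.a b x)

variable (m B G G' S) in
/-- the connection for `G'` with the same `g`-part -/
def chg (W : m.Cn) : m.Cn := fun a x =>
  ∑ b, S x a b • W b x + ∑ b, ∑ k, cf0 G.F G'.F S x a b k • (m.ρ b x * m.ρ k x)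
    + la0 B G G' S x a • (m.J * m.p x)

theorem cf0_spin (a : ι) : ∑ b, ∑ k, cf0 G.F G'.F S x a b k • (m.ρ b x * m.ρ k x) =
    spin (fun b => m.ρ b x) fun b k => dG (fun a b x => S x a b) G.F.Gam G'.F.Gam a b k x := by
  simp only [cf0, spin, mul_smul, smul_sum]

/-- on the commutant only the first term acts -/
theorem chg_lie {ξ : En (Fin m.N)} (hρ : ∀ b, m.ρ b x * ξ = ξ * m.ρ b x)
    (hJ : m.J * ξ = ξ * m.J) (hp : m.p x * ξ = ξ * m.p x) (a : ι) :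
    chg m B G G' S W a x * ξ - ξ * chg m B G G' S W a x =
      ∑ b, S x a b • (W b x * ξ - ξ * W b x) := by
  have h1 : ∀ b k, m.ρ b x * m.ρ k x * ξ = ξ * (m.ρ b x * m.ρ k x) := fun b k =>
    (Commute.mul_left (hρ b) (hρ k)).eq
  have h2 : m.J * m.p x * ξ = ξ * (m.J * m.p x) := (Commute.mul_left hJ hp).eq
  simp only [chg, add_mul, mul_add, sum_mul, mul_sum, smul_mul_assoc, mul_smul_comm, h1, h2,
    add_sub_add_right_eq_sub, smul_sub, sum_sub_distrib]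

section chg
variable (hB : B.OK I) (hG : G.OK B) (hG' : G'.OK B)
  (hS : Mix G.F.toPre G'.F.toPre fun a b x => S x a b)
include hB hG hG' hS

theorem la0_eq (a : ι) (x : M) : (G'.a a x - ∑ b, S x a b • G.a b x) * B.l x =
    (2 * la0 B G G' S x a) • (B.il * B.l x) := by
  rw [line_skew (plx hB x) ?_ ?_ ((skS (Eu lam)).sub_mem (show Sk _ from hG'.sk a x)
    ((skS (Eu lam)).sum_mem fun b _ => (skS (Eu lam)).smul_mem _ (hG.sk b x))), la0]
  · congr 1; ring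
  · have h := hG'.par a x
    rw [hS.D] at h
    have h2 : ∀ b, G.F.D b B.l x = -(G.a b x * B.l x - B.l x * G.a b x) := fun b =>
      eq_neg_of_add_eq_zero_left (hG.par b x)
    simp only [h2, smul_neg, smul_sub, sum_neg_distrib, sum_sub_distrib] at h
    simp only [sub_mul, mul_sub, sum_mul, mul_sum, smul_mul_assoc, mul_smul_comm]
    rw [← sub_eq_zero, ← h]; abel
  · simp only [sub_mul, mul_sub, sum_mul, mul_sum, smul_mul_assoc, mul_smul_comm, hG.il, hG'.il]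

/-- **change of the background** -/
theorem isConn_chg (sS : ∀ a b, Sm I fun x => S x a b)
    (PS : ∀ x a b, ∑ c, B.P a c x * S x c b = S x a b) (H : m.OK I B) (C : m.IsConn B G W) :
    m.IsConn B G' (chg m B G G' S W) := by
  have hD : ∀ a (f : M → ℝ) x, dv I (G'.F.e a) f x = ∑ l, S x a l * dv I (G.F.e l) f x :=
    fun a f x => congrFun (hS.D a f) x
  have c := cc_chg (S := fun a b x => S x a b) C.cc (glc hG) (gfrm hG') (glc hG') (gsep hG')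
    (fun a b x => sS a b x) (fun a b x => PS x a b) hD fun a f x => congrFun (hS.D a f) x
  have sla : ∀ a, Sm I fun x => la0 B G G' S x a := fun a =>
    Kl.mul (K := Std94.smAll I) contMDiff_const (Kl.hs (Kl.mulL contMDiff_const hB.sl)
      (Kl.sub (hG'.con.sm a) (Kl.fsum _ fun b => Kl.smul (sS a b) (hG.con.sm b))))
  have pla : ∀ a x, ∑ b, B.P a b x * la0 B G G' S x b = la0 B G G' S x a := fun a x => by
    have e : ∑ b, B.P a b x • (G'.a b x - ∑ c, S x b c • G.a c x) =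
        G'.a a x - ∑ c, S x a c • G.a c x := by
      simp only [smul_sub, sum_sub_distrib, hG'.con.proj, smul_sum, smul_smul]
      rw [sum_comm]
      simp only [← sum_smul, PS]
    simp only [la0]
    rw [← e, Std94.hs_comm, Std94.hs_sum, mul_sum]
    exact sum_congr rfl fun b _ => by rw [Std94.hs_smul, Std94.hs_comm]; ring
  have cs : ∀ {T : En (Fin m.N)} {x : M}, (∀ a, T * m.ρ a x = m.ρ a x * T) → ∀ b k,
      T * (m.ρ b x * m.ρ k x) = m.ρ b x * m.ρ k x * T := fun h b k =>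
    (Commute.mul_right (h b) (h k)).eq
  refine ⟨?_, fun a x => ?_, fun a x => ?_, fun a x s => ?_⟩
  · have := c.addA (B := fun a x => la0 B G G' S x a • (m.J * m.p x))
      ⟨fun a x => SA.smul (sla a x) (SA.mul contMDiffAt_const (H.sp x)), fun a x => by
        simp only [smul_smul, ← sum_smul, pla]⟩
      (fun a x => by rw [smul_mul_assoc, mul_smul_comm, Jp_p H])
      (fun a b x => by rw [smul_mul_assoc, mul_smul_comm, Jp_ρ H])
    convert this using 1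
    funext a x
    rw [chg, cf0_spin]; rfl
  · rw [chg, cf0_spin]
    exact (skS m.V).add_mem ((skS m.V).add_mem ((skS m.V).sum_mem fun b _ =>
      (skS m.V).smul_mem _ (C.sk b x)) (spin_sk (fun b => H.ρsk b x)
        fun b k => dG_skew (glc hG) (glc hG') hD a b k x)) ((skS m.V).smul_mem _ (sk_Jp H x))
  · simp only [chg, add_mul, mul_add, sum_mul, mul_sum, smul_mul_assoc, mul_smul_comm, C.J,
      cs fun a => H.Jρ a x, J_Jp H]
  · have h := congrArg (fun T : En lam => m.j x (T s)) (la0_eq hB hG hG' hS a x)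
    have h1 : ∀ {G : Geo I M ι lam}, G.OK B → ∀ a, m.j x (G.a a x (B.l x s)) =
        m.j x (G.a a x s) - m.j x (G.F.D a B.l x s) := fun {G} hG a => by
      have := congrArg (fun T : En lam => m.j x (T s)) (hG.par a x)
      simp only [add_apply, sub_apply, mul_apply_eq_comp, map_add, map_sub, H.jl, zero_apply,
        map_zero] at this
      rw [← sub_eq_zero, ← this]; abel
    have h2 : ∀ b, G.F.D b m.j x s = m.j x (G.a b x s) - (W b x * m.j x s - m.j x s * W b x) :=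
      fun b => eq_sub_of_add_eq (C.j b x s)
    simp only [mul_apply_eq_comp, sub_apply, _root_.sum_apply, smul_apply, map_sub, map_sum,
      map_smul, H.jil, H.jl, h1 hG, h1 hG', hS.D, smul_sub, sum_sub_distrib] at h
    have h3 := lie_Jp (pmx H x) s
    simp only [chg, hS.D, add_mul, mul_add, sum_mul, mul_sum, smul_mul_assoc, mul_smul_comm,
      cs fun a => H.jρ a x s, _root_.sum_apply, smul_apply, h2, smul_sub, sum_sub_distrib,
      sub_eq_iff_eq_add.1 h3, smul_add, smul_smul]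
    rw [mul_comm _ (2 : ℝ), ← h]; abel

end chg

theorem c_eq {F F' : Fr I M ι} (he : F.e = F'.e) (hP : F.P = F'.P) : F.c = F'.c := by
  funext a b l x
  have := sep F x (fun k => F.c a b k x - F'.c a b k x) (fun f hf => by
    have h := (frm F').br a b f x hf.self_of_nhds
    rw [← he, (frm F).br _ _ f x hf.self_of_nhds] at h
    simp only [sub_mul, sum_sub_distrib, h, sub_self]) l
  simp only [sub_mul, sum_sub_distrib, c_P'] at this
  rw [hP, c_P'] at this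
  exact sub_eq_zero.1 this

theorem Gam_eq {F F' : Fr I M ι} (he : F.e = F'.e) (hP : F.P = F'.P) : F.Gam = F'.Gam := by
  funext a b k x
  simp only [Fr.Gam, Pre.D_def, he, hP, c_eq he hP]

theorem Cb_of_e {F F' : Pre I M ι} (he : F.e = F'.e) {N : Type} [NormedAddCommGroup N]
    [NormedSpace ℝ N] {f : M → N} (h : F.Cb f) : F'.Cb f := by
  obtain ⟨C, h1, h2⟩ := h
  have e : ∀ (w : List ι) (f : M → N), F'.Dw w f = F.Dw w f := fun w => by
    induction w with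
    | nil => exact fun _ => rfl
    | cons a w ih => exact fun f => by simp only [Pre.Dw, ih, Pre.D_def, he]
  exact ⟨C, h1, fun k w hw x => e w f ▸ h2 k w hw x⟩

section fam
variable {T : Type} [NormedAddCommGroup T] [NormedSpace ℝ T]

/-- smooth families of bounded functions -/
def sbK (F : Pre I M ι) (O : Set T) : Kl (T × M) :=
  ⟨fun f => SB F O fun t x => f (t, x), fun c => SB.fixed (Cb_const c), SB.add, SB.app⟩

variable (I) in
/-- jointly smooth families -/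
def jsK (O : Set T) : Kl (T × M) :=
  ⟨fun f => JS I O fun t x => f (t, x), fun _ _ _ _ => contMDiffAt_const,
    fun h k t ht x => (h t ht x).add (k t ht x), fun h k t ht x => (h t ht x).clm_apply (k t ht x)⟩

theorem kl_cf0 {X : Type} {K : Kl X} {φ : X → M} {F F' : X → Fr I M ι} {S : X → M → ι → ι → ℝ}
    (hS : ∀ a b, K.mem fun t => S t (φ t) a b) (h : ∀ a b k, K.mem fun t => (F t).Gam a b k (φ t))
    (h' : ∀ a b k, K.mem fun t => (F' t).Gam a b k (φ t)) (a b k : ι) :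
    K.mem fun t => cf0 (F t) (F' t) (S t) (φ t) a b k :=
  Kl.mul (K.const _) (Kl.sub (h' a b k) (Kl.fsum _ fun l => Kl.mul (hS a l) (h l b k)))

theorem kl_la0 {X : Type} {K : Kl X} {φ : X → M} {G G' : X → Geo I M ι lam}
    {S : X → M → ι → ι → ℝ} (hS : ∀ a b, K.mem fun t => S t (φ t) a b)
    (hl : K.mem fun t => B.l (φ t)) (h : ∀ a, K.mem fun t => (G t).a a (φ t))
    (h' : ∀ a, K.mem fun t => (G' t).a a (φ t)) (a : ι) :
    K.mem fun t => la0 B (G t) (G' t) (S t) (φ t) a :=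
  Kl.mul (K.const _) (Kl.hs (Kl.mulL (K.const _) hl)
    (Kl.sub (h' a) (Kl.fsum _ fun b => Kl.smul (hS a b) (h b))))

open Mod61

/-- the family with the canonical coefficients `cf`, `la` -/
def std (𝔉 : Fam I M ι lam T) : Fam I M ι lam T :=
  { 𝔉 with
    cf := fun t => cf0 𝔉.G0.F (𝔉.G t).F (𝔉.S t)
    la := fun t => la0 𝔉.B 𝔉.G0 (𝔉.G t) (𝔉.S t) }

theorem std_W0 (𝔉 : Fam I M ι lam T) (m : Md M ι lam) (A0 : m.Cn) (t : T) :
    (std 𝔉).W0 m A0 t = chg m 𝔉.B 𝔉.G0 (𝔉.G t) (𝔉.S t) A0 := rfl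

/-- on the commutant `W0` acts through its first term -/
theorem W0_lie (𝔉 : Fam I M ι lam T) (A0 : m.Cn) (t : T) {ξ : En (Fin m.N)}
    (hρ : ∀ b, m.ρ b x * ξ = ξ * m.ρ b x) (hJ : m.J * ξ = ξ * m.J) (hp : m.p x * ξ = ξ * m.p x)
    (a : ι) : 𝔉.W0 m A0 t a x * ξ - ξ * 𝔉.W0 m A0 t a x =
      ∑ b, 𝔉.S t x a b • (A0 b x * ξ - ξ * A0 b x) := by
  have h1 : ∀ b k, m.ρ b x * m.ρ k x * ξ = ξ * (m.ρ b x * m.ρ k x) := fun b k =>
    (Commute.mul_left (hρ b) (hρ k)).eq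
  have h2 : m.J * m.p x * ξ = ξ * (m.J * m.p x) := (Commute.mul_left hJ hp).eq
  simp only [Fam.W0, add_mul, mul_add, sum_mul, mul_sum, smul_mul_assoc, mul_smul_comm, h1, h2,
    add_sub_add_right_eq_sub, smul_sub, sum_sub_distrib]

/-- `Fam.OK` without the rows on `cf`, `la` -/
structure OK0 (𝔉 : Fam I M ι lam T) : Prop where
  B : 𝔉.B.OK I
  G0 : 𝔉.G0.OK 𝔉.B
  G : ∀ t ∈ 𝔉.Q, (𝔉.G t).OK 𝔉.B
  tame : ∃ C, 𝔉.F0.Tame C
  tameG : ∀ t ∈ 𝔉.Q, ∃ C, (𝔉.G t).F.Tame C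
  e0 : 𝔉.G0.F.e = 𝔉.F0.e
  P0 : 𝔉.F0.P = 𝔉.B.P
  co : ∀ a b c d, 𝔉.F0.Cb (𝔉.B.o a b c d)
  cl : 𝔉.F0.Cb 𝔉.B.l
  ca : ∀ a, 𝔉.F0.Cb (𝔉.G0.a a)
  opn : IsOpen 𝔉.Q
  Om : IsClopen 𝔉.Om
  Om' : IsClopen 𝔉.Om'
  sub : 𝔉.Om' ⊆ 𝔉.Om
  mix : ∀ t ∈ 𝔉.Q, Mix 𝔉.F0.toPre (𝔉.G t).F.toPre fun a b x => 𝔉.S t x a b
  PS : ∀ t ∈ 𝔉.Q, ∀ x a b, ∑ c, 𝔉.B.P a c x * 𝔉.S t x c b = 𝔉.S t x a b
  SP : ∀ t ∈ 𝔉.Q, ∀ x a b, ∑ c, 𝔉.S t x a c * 𝔉.B.P c b x = 𝔉.S t x a b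
  PSi : ∀ t ∈ 𝔉.Q, ∀ x a b, ∑ c, 𝔉.B.P a c x * 𝔉.Si t x c b = 𝔉.Si t x a b
  SiP : ∀ t ∈ 𝔉.Q, ∀ x a b, ∑ c, 𝔉.Si t x a c * 𝔉.B.P c b x = 𝔉.Si t x a b
  SSi : ∀ t ∈ 𝔉.Q, ∀ x a b, ∑ c, 𝔉.S t x a c * 𝔉.Si t x c b = 𝔉.B.P a b x
  SiS : ∀ t ∈ 𝔉.Q, ∀ x a b, ∑ c, 𝔉.Si t x a c * 𝔉.S t x c b = 𝔉.B.P a b x
  sS : ∀ a b, SB 𝔉.F0.toPre 𝔉.Q fun t x => 𝔉.S t x a b
  sSi : ∀ a b, SB 𝔉.F0.toPre 𝔉.Q fun t x => 𝔉.Si t x a b
  sc : ∀ a b k, SB 𝔉.F0.toPre 𝔉.Q fun t => (𝔉.G t).F.c a b k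
  sdv : ∀ a, SB 𝔉.F0.toPre 𝔉.Q fun t => (𝔉.G t).F.dv a
  sa : ∀ a, SB 𝔉.F0.toPre 𝔉.Q fun t => (𝔉.G t).a a
  dens : ∃ h : T → M → ℝ, SB 𝔉.F0.toPre 𝔉.Q h ∧ ∀ t ∈ 𝔉.Q, (∀ x, 0 < h t x) ∧
    (𝔉.G t).F.μ = 𝔉.F0.μ.withDensity fun x => ENNReal.ofReal (h t x)

theorem sb_Gam {F0 : Fr I M ι} {Q : Set T} {F : T → Fr I M ι} {S : T → M → ι → ι → ℝ}
    (hP0 : ∀ a b, F0.Cb (F0.P a b)) (hP : ∀ t ∈ Q, (F t).P = F0.P)
    (mix : ∀ t ∈ Q, Mix F0.toPre (F t).toPre fun a b x => S t x a b)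
    (sS : ∀ a b, SB F0.toPre Q fun t x => S t x a b)
    (sc : ∀ a b k, SB F0.toPre Q fun t => (F t).c a b k) (a b k : ι) :
    SB F0.toPre Q fun t => (F t).Gam a b k :=
  kl_Gam (K := sbK F0.toPre Q) (φ := Prod.snd) (F := fun z => F z.1)
    (fun a b k => SB.D' (G := fun t => (F t).toPre) (A := fun a b t x => S t x a b)
      (f := fun t => (F t).P b k) mix sS ((SB.fixed (hP0 b k)).congr fun t ht => by rw [hP t ht]) a) sc a b k

theorem sb_cf0 {F0 : Pre I M ι} {Q : Set T} {F₁ : Fr I M ι} {F : T → Fr I M ι}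
    {S : T → M → ι → ι → ℝ} (sS : ∀ a b, SB F0 Q fun t x => S t x a b)
    (h : ∀ a b k, F0.Cb (F₁.Gam a b k)) (h' : ∀ a b k, SB F0 Q fun t => (F t).Gam a b k)
    (a b k : ι) : SB F0 Q fun t x => cf0 F₁ (F t) (S t) x a b k :=
  kl_cf0 (K := sbK F0 Q) (φ := Prod.snd) (F := fun _ => F₁) (F' := fun z => F z.1)
    (S := fun z => S z.1) sS (fun a b k => SB.fixed (h a b k)) h' a b k

theorem sb_la0 {F0 : Pre I M ι} {Q : Set T} {G : T → Geo I M ι lam} {S : T → M → ι → ι → ℝ}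
    (sS : ∀ a b, SB F0 Q fun t x => S t x a b) (hl : F0.Cb B.l) (h : ∀ a, F0.Cb (G'.a a))
    (h' : ∀ a, SB F0 Q fun t => (G t).a a) (a : ι) :
    SB F0 Q fun t x => la0 B G' (G t) (S t) x a :=
  kl_la0 (K := sbK F0 Q) (φ := Prod.snd) (G := fun _ => G') (G' := fun z => G z.1)
    (S := fun z => S z.1) sS (SB.fixed hl) (fun a => SB.fixed (h a)) h' a

theorem OK0.conn {𝔉 : Fam I M ι lam T} (h : OK0 𝔉) (m : Md M ι lam) (A0 : m.Cn) (H : m.OK I 𝔉.B)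
    (c : m.IsConn 𝔉.B 𝔉.G0 A0) (t : T) (ht : t ∈ 𝔉.Q) :
    m.IsConn 𝔉.B (𝔉.G t) (chg m 𝔉.B 𝔉.G0 (𝔉.G t) (𝔉.S t) A0) :=
  isConn_chg h.B h.G0 (h.G t ht) (fun a x => by rw [h.e0]; exact h.mix t ht a x)
    (fun a b => ((h.sS a b).cb t ht).choose_spec.1) (h.PS t ht) H c

/-- **the rows `scf`, `sla`, `conn` of `Fam.OK`** -/
theorem OK0.ok {𝔉 : Fam I M ι lam T} (h : OK0 𝔉) : (std 𝔉).OK := by
  obtain ⟨C, hC⟩ := h.tame
  have hP0 : ∀ a b, 𝔉.F0.Cb (𝔉.F0.P a b) := fun a b => ⟨C, hC.P a b⟩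
  have g0 : ∀ a b k, 𝔉.F0.Cb (𝔉.G0.F.Gam a b k) := by
    rw [Gam_eq h.e0 (h.G0.P.trans h.P0.symm)]
    exact cb_Gam hP0 fun a b k => ⟨C, hC.c a b k⟩
  exact ⟨h.B, h.G0, h.G, h.tame, h.tameG, h.e0, h.P0, h.co, h.cl, h.opn, h.Om, h.Om', h.sub, h.mix,
    h.PS, h.SP, h.PSi, h.SiP, h.SSi, h.SiS, h.sS, h.sSi,
    sb_cf0 h.sS g0 (sb_Gam hP0 (fun t ht => (h.G t ht).P.trans h.P0.symm) h.mix h.sS h.sc),
    sb_la0 h.sS h.cl h.ca h.sa, h.sc, h.sdv, h.sa, h.dens, h.conn⟩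

/-- a reference point on every bounded module -/
def ref {𝔉 : Fam I M ι lam T} (h : 𝔉.OK) (ca : ∀ a, 𝔉.F0.Cb (𝔉.G0.a a)) (m : Md M ι lam)
    (H : m.OK I 𝔉.B) (cp : 𝔉.F0.Cb m.p) (cρ : ∀ a, 𝔉.F0.Cb (m.ρ a)) (cj : 𝔉.F0.Cb m.j) : Ref 𝔉 where
  m := m
  A0 := can m 𝔉.G0
  Φ0 := 0
  ok := H
  conn := isConn_can h.B h.G0 H
  cp := cp
  cρ := cρ
  cj := cj
  cA a := by
    obtain ⟨C, hC⟩ := h.tame
    have e := fun {N : Type} [NormedAddCommGroup N] [NormedSpace ℝ N] {f : M → N} =>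
      Cb_of_e (F := 𝔉.F0.toPre) (F' := 𝔉.G0.F.toPre) h.e0.symm (f := f)
    refine Cb_of_e h.e0 (cb_can (fun a b k => e ?_) (fun a => e (ca a)) (e cp) (fun a => e (cρ a))
      (e cj) a)
    rw [Gam_eq h.e0 (h.G0.P.trans h.P0.symm)]
    exact cb_Gam (fun a b => ⟨C, hC.P a b⟩) (fun a b k => ⟨C, hC.c a b k⟩) a b k
  cΦ := Cb_const 0
  pos x := map_zero _

instance {𝔉 : Fam I M ι lam T} (h : 𝔉.OK) (ca : ∀ a, 𝔉.F0.Cb (𝔉.G0.a a)) (m : Md M ι lam)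
    (H : m.OK I 𝔉.B) (cp : 𝔉.F0.Cb m.p) (cρ : ∀ a, 𝔉.F0.Cb (m.ρ a)) (cj : 𝔉.F0.Cb m.j) :
    (ref h ca m H cp cρ cj).B0 := ⟨rfl⟩

end fam

end Crest.Agent.X212.Spn45
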