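import Crest.Agent.X212.Crt72.Props
import Crest.Agent.X212.Eqv71.Cfg
import Crest.Agent.X212.Spn45.Aff

/-!
# Row 212, CRIT-NAT (helper45): variations are admissible; naturality on the cross-section
-/

set_option autoImplicit false
set_option linter.unusedSectionVars false
noncomputable section
open scoped Manifold ContDiff Topology InnerProductSpace
open MeasureTheory Set Function Filter

namespace Crest.Agent.X212.Spn45
open An Wz78 Cyf70 Dgr80 Nd18 Crt72 Eqv71 Mp86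

section pt
variable {E : Type} [NormedAddCommGroup E] [NormedSpace ℝ E]
  {HM : Type} [TopologicalSpace HM] {I : ModelWithCorners ℝ E HM}
  {M : Type} [TopologicalSpace M] [ChartedSpace HM M] {ι : Type} [Fintype ι] {lam : Type}
  [Fintype lam] {B : Base M ι lam} {m m' : Md M ι lam} {x : M} {v : En lam} {u : CL m.V m'.V}

theorem me_rho (e : ME m x m' x (fun b a => B.P b a x) v u) (h : m.OK I B) (b : ι) (a : m.V) :
    m'.ρ b x (u a) = u (m.ρ b x a) := by
  have := e.ρ b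
  rw [(h.cl x).proj b] at this
  exact congrArg (fun T : CL m.V m'.V => T a) this

theorem me_hm {U : ι → ι → ℝ} (e : ME m x m' x U (B.l x) u) (h : m.OK I B) (h' : m'.OK I B)
    (ζ : Circle) (s : Eu lam) (a : m.V) {b : m.V} (hb : m.p x b = b) :
    hm m'.J (m'.j x s ((csL m'.J ζ ∘L u) a)) ((csL m'.J ζ ∘L u) b) =
      (ζ : ℂ) ^ 2 * hm m.J (m.j x s a) b := by
  have h2 : (ζ : ℂ) * starRingEnd ℂ ζ = 1 := by rw [Complex.mul_conj, Circle.normSq_coe]; rfl
  have h1 : m'.j x s ((csL m'.J ζ ∘L u) a) =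
      cs m'.J (starRingEnd ℂ ζ * starRingEnd ℂ ζ) ((csL m'.J ζ ∘L u) (m.j x s a)) := by
    simp only [ContinuousLinearMap.comp_apply, csL_apply]
    rw [← h'.jl, ME.cs_j h', e.j_apply, cs_mul h'.Jsq, mul_assoc, mul_comm _ (ζ : ℂ), h2, mul_one]
  rw [h1, hm_cs_left h'.Jsq h'.Jsk, (e.phase h' ζ).hm h _ hb, map_mul, Complex.conj_conj, sq]

theorem ridx_pr {κ κ' : Type} [Fintype κ] [DecidableEq κ] [Fintype κ'] [DecidableEq κ']
    {P : ι → ι → ℝ} (hP : Pr P) {p : En κ} {ξ : Fm (ι × ι) (HS κ)}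
    (h : ξ = ridx (sq2 P) (cj p) ξ) (u : CL (Eu κ) (Eu κ')) (s : ι × ι) :
    ridx (sq2 P) (cj u) ξ s = cj u (ξ s) := by
  have h1 : ridx (sq2 P) (ContinuousLinearMap.id ℝ _) ξ = ξ := by
    rw [h, ridx_ridx]
    simp only [sq2_mul, hP.idem, ContinuousLinearMap.id_comp]
  conv_rhs => rw [← h1]
  simp only [ridx_apply, map_sum, map_smul, ContinuousLinearMap.id_apply]

end pt

variable {E3 : Type} [NormedAddCommGroup E3] [NormedSpace ℝ E3] [FiniteDimensional ℝ E3]
  [MeasurableSpace E3] [BorelSpace E3]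
  {H3 : Type} [TopologicalSpace H3] {I3 : ModelWithCorners ℝ E3 H3} [I3.Boundaryless]
  {Y : Type} [TopologicalSpace Y] [ChartedSpace H3 Y] [IsManifold I3 ∞ Y] [T2Space Y]
  [MeasurableSpace Y] [BorelSpace Y] [SecondCountableTopology Y] [CompactSpace Y]
  {κ : Type} [Fintype κ] {lam : Type} [Fintype lam] {D : YD I3 Y κ lam} {β β' : YC Y κ lam}

theorem admV : AdmV D := fun β hβ y =>
  ⟨⟨hβ.adm.ok, isConn_addC hβ.adm.ok hβ.adm.conn (α := fun x => up κ _ (y.1.1 x.1))
      ((up κ _).contMDiff.comp (sm_fst y.1.2.1)) fun x => PiLp.ext fun a => by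
        have h := y.1.2.2.2 x.1
        refine (Eqv71.idx_apply _ _ _ _).trans ?_
        rw [Fintype.sum_option]
        cases a with
        | none =>
          show (1 : ℝ) • β.m.pg x.1 0 + ∑ b, (0 : ℝ) • β.m.pg x.1 (y.1.1 x.1 b) = 0
          simp
        | some a =>
          show (0 : ℝ) • β.m.pg x.1 0 + ∑ b, D.F.P a b x.1 • β.m.pg x.1 (y.1.1 x.1 b) = y.1.1 x.1 a
          rw [zero_smul, zero_add]
          exact (Eqv71.idx_apply _ _ _ a).symm.trans (congrArg (· a) h),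
    hβ.adm.sm.add (sm_fst y.2.2.1),
    fun x => (map_add _ _ _).trans (congrArg₂ (· + ·) (hβ.adm.pos x) (y.2.2.2.2 x.1)), .inl rfl⟩,
    fun x => (congrArg₂ (· + ·) (hβ.tmp x) (map_zero opL)).trans (add_zero _)⟩

variable (D) in
/-- the background restricted to `Y` -/
def bY : Base Y (Option κ) lam := ⟨fun a b y => D.B.P a b (y, 0), D.o, D.l, D.il⟩

theorem mY (h : D.Adm β) : β.m.OK I3 (bY D) :=
  have H := h.adm.ok
  ⟨H.Jsq, H.Jsk, sm_slice_fst H.sp 0, fun a => sm_slice_fst (H.sρ a) 0, sm_slice_fst H.sj 0,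
    fun y => H.psym (y, 0), fun y => H.pidem (y, 0), fun y => H.prk (y, 0), fun y => H.Jp (y, 0),
    fun y => H.cl (y, 0), fun a y => H.ρsk a (y, 0), fun a y => H.Jρ a (y, 0),
    fun y => H.jsym (y, 0), fun y => H.jJ (y, 0), fun y => H.jil (y, 0), fun y => H.jl (y, 0),
    fun y => H.jsq (y, 0), fun y => H.pj (y, 0), fun a y => H.jρ a (y, 0)⟩

theorem mcY (h : D.Adm β) : Mc I3 (cn β) :=
  ⟨fun a => sm_slice_fst (u := (cy β).W (some a)) (fun x => h.adm.conn.cc.sm (some a) x) 0,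
    fun a y => h.adm.conn.sk (some a) (y, 0)⟩

theorem sum_W (h : D.OK) (hβ : D.Adm β) (a : Option κ) (x : Y × ℝ) :
    ∑ b, D.B.P b a x • β.W b x.1 = β.W a x.1 :=
  (Finset.sum_congr rfl fun b _ => by rw [(h.B.pr x).symm b a]; rfl).trans
    (hβ.adm.conn.cc.proj a x)

theorem nat_eqv (h : D.OK) (hβ : D.Adm β) (hβ' : D.Adm β') (e : D.Eqv β β') :
    ∃ w ζ, YIso D β β' w ζ := by
  obtain ⟨u : Y × ℝ → CL β.m.V β'.m.V, ζ, e⟩ := e
  have hu : Sm (IC I3) u := contMDiffOn_univ.1 e.m.su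
  have h1 : ∀ y t, deriv (fun s => u (y, s)) t = 0 := fun y t => by
    have h2 : D.Z.D none u (y, t) + (∑ b, D.B.P b none (y, t) • β'.W b y) ∘L u (y, t) -
      u (y, t) ∘L β.W none y = 0 := e.W (y, t) trivial none
    rw [sum_W h hβ' none (y, t), hβ.tmp, hβ'.tmp, ContinuousLinearMap.zero_comp,
      ContinuousLinearMap.comp_zero, add_zero, sub_zero] at h2
    exact (D_none D.F.toPre hu (y, t)).symm.trans h2
  have h3 : u = fun x => u (x.1, 0) := funext fun x =>
    is_const_of_deriv_eq_zero ((sm_slice_snd hu x.1).differentiable (by simp)) (h1 x.1) x.2 0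
  exact ⟨fun y => u (y, 0), ζ, by rw [h3] at e; exact e⟩

theorem cont_yw (hβ : D.Adm β) {u : List (YL Y)} (hu : ∀ t ∈ u, YL.OK I3 t) :
    Continuous (yw D.F β u) := by
  have H := mY hβ
  induction u with
  | nil =>
    have hΦ : Continuous β.Φ := (sm_slice_fst hβ.adm.sm 0).continuous
    exact (Continuous.inv₀ (f := fun y => √(1 + ‖β.Φ y‖ ^ 2)) (by fun_prop)
      fun y => by positivity).smul hΦ
  | cons t u ih =>
    have h1 := ih fun s hs => hu s (List.mem_cons_of_mem _ hs)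
    have h2 := hu t List.mem_cons_self
    match t, h2 with
    | .mul f, h2 => exact (h2.continuous.smul continuous_const).clm_apply h1
    | .cl none, _ => exact (H.sρ none).continuous.clm_apply h1
    | .cl (some g), h2 =>
      exact (continuous_finsetSum _ fun a _ =>
        (D.F.sm_D (h2 g rfl) a).continuous.smul (H.sρ _).continuous).clm_apply h1
    | .im, _ => exact β.m.J.continuous.comp h1
    | .G, _ => exact (sm_res _ _ _).continuous

theorem f_cx (hβ : D.Adm β) (d : B2 D) :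
    (⟨(yf D (.re d)).f β, (yf D (.im d)).f β⟩ : ℂ) =
      ∫ y, hm β.m.J (β.m.j y (d.1.s y) (yw D.F β d.1.u y)) (yw D.F β d.1.v y) ∂D.F.μ := by
  have H := mY hβ
  have h1 := ((H.sj.continuous.clm_apply d.2.1.continuous).clm_apply (cont_yw hβ d.2.2.1))
  have h2 := cont_yw hβ d.2.2.2
  have hi : Integrable (fun y => hm β.m.J (β.m.j y (d.1.s y) (yw D.F β d.1.u y))
      (yw D.F β d.1.v y)) D.F.μ :=
    Continuous.integrable_of_hasCompactSupport (Complex.equivRealProdCLM.symm.continuous.comp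
      ((h1.inner h2).prodMk (h1.inner (β.m.J.continuous.comp h2)).neg)) (.of_compactSpace _)
  refine Complex.ext (integral_re hi) (Eq.trans ?_ (integral_im hi))
  exact integral_congr_ae (.of_forall fun y => H.Jsk _ _)

section iso
variable {w : Y → CL β.m.V β'.m.V} {ζ : Circle} (h : D.OK) (hβ : D.Adm β) (hβ' : D.Adm β')
  (e : YIso D β β' w ζ)
include e

theorem meY (y : Y) : ME β.m y β'.m y (fun b a => (bY D).P b a y) ((bY D).l y) (w y) :=
  have H := me_of_meq e.m (mem_univ (y, 0))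
  ⟨H.uu, H.uu', H.J, H.ρ, H.j⟩

theorem smY : Sm I3 w := sm_slice_fst (contMDiffOn_univ.1 e.m.su) 0

include h hβ' in
theorem itwY (y : Y) : Itw I3 D.F.e (cn β) (cn β') w y := fun a => by
  have h1 : D.Z.D (some a) (fun x => w x.1) (y, 0) +
    (∑ b, D.B.P b (some a) (y, 0) • β'.W b y) ∘L w y - w y ∘L β.W (some a) y = 0 :=
    e.W (y, 0) trivial (some a)
  rw [sum_W h hβ' (some a) (y, 0), sub_eq_zero] at h1
  exact (congrArg (· + _) (congrFun (D_some_fst D.F.toPre (smY e) a) (y, 0)).symm).trans h1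

include h hβ hβ'

theorem nat_A (y : Y) (a : κ) : (YF.z0 D).gA β' y a = cj (w y) ((YF.z0 D).gA β y a) := by
  have g := lg_refl h.B h.G isOpen_univ
  have k1 := ceq_eC (τ := pt0) (τ' := pt0) g (ad0 hβ.adm) (ad0 hβ'.adm) e (mem_univ (y, 0))
    (map_zero _).symm
  have k0 := ceq_eC (τ := pt0) (τ' := pt0) g (ad0 hβ.adm) (ad0 hβ.adm)
    (ceq_refl h.B h.G (ad0 hβ.adm) isOpen_univ) (mem_univ (y, 0)) (map_zero _).symm
  exact (congrArg ((1 / 2 : ℝ) • ·) ((congrArg (· (none, some a)) k1).trans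
    (ridx_pr (h.B.pr (y, 0)) k0 _ _))).trans (map_smul _ _ _).symm

theorem nat_P (y : Y) : (YF.z0 D).gP β' y = cs β'.m.J ζ (w y ((YF.z0 D).gP β y)) := by
  have k1 : (cy β').eD D.G pt0 (y, 0) = (csL β'.m.J ζ ∘L w y) ((cy β).eD D.G pt0 (y, 0)) :=
    ceq_eD (τ := pt0) (τ' := pt0) (lg_refl h.B h.G isOpen_univ) (ad0 hβ.adm) (ad0 hβ'.adm) e
      (mem_univ (y, 0)) (map_zero (csL β'.m.J ζ ∘L w y)).symm
  exact ((congrArg (fun a => -β'.m.ρ none y a) k1).trans (congrArg Neg.neg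
    (me_rho ((meY e y).phase (mY hβ') ζ) (mY hβ) none _))).trans (map_neg _ _).symm

/-- words are natural -/
theorem rel_yw (u : List (YL Y)) : (∀ y, yw D.F β' u y = (csL β'.m.J ζ ∘L w y) (yw D.F β u y)) ∧
    ∀ y, β.m.p y (yw D.F β u y) = yw D.F β u y := by
  have H := mY hβ
  have me := fun y => (meY e y).phase (mY hβ') ζ
  have pρ : ∀ b y a, β.m.p y (β.m.ρ b y a) = β.m.ρ b y a := fun b y a =>
    congrArg (fun T : En _ => T a) ((H.cl y).pl b)
  induction u with
  | nil =>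
    have h1 : ∀ y, β'.Φ y = (csL β'.m.J ζ ∘L w y) (β.Φ y) := fun y => e.Φ (y, 0) trivial
    have h2 : ∀ y, β.m.p y (β.Φ y) = β.Φ y := fun y => p_Φ (ad0 hβ.adm) (y, 0)
    refine ⟨fun y => ?_, fun y => ?_⟩
    · show (√(1 + ‖β'.Φ y‖ ^ 2))⁻¹ • β'.Φ y = (csL β'.m.J ζ ∘L w y) (_ • β.Φ y)
      rw [map_smul, h1, (me y).norm (h2 y)]
    · show β.m.p y (_ • β.Φ y) = _ • β.Φ y
      rw [map_smul, h2]
  | cons t u ih =>
    obtain ⟨h1, h2⟩ := ih
    match t with
    | .mul f =>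
      refine ⟨fun y => ?_, fun y => ?_⟩
      · show f y • yw D.F β' u y = (csL β'.m.J ζ ∘L w y) (f y • yw D.F β u y)
        rw [map_smul, h1]
      · show β.m.p y (f y • yw D.F β u y) = f y • yw D.F β u y
        rw [map_smul, h2]
    | .cl none =>
      exact ⟨fun y => (congrArg (β'.m.ρ none y) (h1 y)).trans (me_rho (me y) H none _),
        fun y => pρ none y _⟩
    | .cl (some g) =>
      refine ⟨fun y => ?_, fun y => ?_⟩
      · show (∑ a, D.F.D a g y • β'.m.ρ (some a) y) (yw D.F β' u y) =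
          (csL β'.m.J ζ ∘L w y) ((∑ a, D.F.D a g y • β.m.ρ (some a) y) (yw D.F β u y))
        simp only [_root_.sum_apply, smul_apply, map_sum, map_smul, h1, me_rho (me y) H]
      · show β.m.p y ((∑ a, D.F.D a g y • β.m.ρ (some a) y) (yw D.F β u y)) =
          (∑ a, D.F.D a g y • β.m.ρ (some a) y) (yw D.F β u y)
        simp only [_root_.sum_apply, smul_apply, map_sum, map_smul, pρ]
    | .im =>
      exact ⟨fun y => (congrArg β'.m.J (h1 y)).trans ((me y).J_apply _), fun y =>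
        (congrArg (fun T : En _ => T (yw D.F β u y)) (H.Jp y)).symm.trans (congrArg β.m.J (h2 y))⟩
    | .G =>
      have sT : Sm I3 fun y => csL β'.m.J ζ ∘L w y := fun y => sa_comp contMDiffAt_const (smY e y)
      have sT' : Sm I3 fun y => trn (csL β'.m.J ζ ∘L w y) := fun y => sa_trn (sT y)
      have iT := fun y => itw_csL (itwY h hβ' e y) (smY e y)
        (fun a => hβ'.adm.conn.J (some a) (y, 0)) ζ
      have iT' := fun y => (iT y).trn (sT y) (fun a => (mcY hβ).sk a y) fun a => (mcY hβ').sk a y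
      have bd : ∀ {N : Type} [NormedAddCommGroup N] {f : Y → N}, Continuous f →
          ∃ C, ∀ y, ‖f y‖ ≤ C := fun hf =>
        (isCompact_univ.exists_bound_of_continuousOn hf.continuousOn).imp fun _ k y => k y trivial
      have uu : ∀ y a, trn (csL β'.m.J ζ ∘L w y) ((csL β'.m.J ζ ∘L w y) a) = β.m.p y a :=
        fun y a => congrArg (fun T : En _ => T a) (me y).uu
      have k1 := res_map (F := D.F) (s := yw D.F β u) bumps_of_compact (mcY hβ).sm (mcY hβ') sT sT'
        (bd sT.continuous) (bd sT'.continuous) iT iT' fun y => (uu y _).trans (h2 y)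
      have k2 := res_map (F := D.F) (s := yw D.F β' u) bumps_of_compact (mcY hβ').sm (mcY hβ) sT'
        sT (bd sT'.continuous) (bd sT.continuous) iT' iT fun y => by rw [h1, uu, h2]
      rw [← funext h1] at k1
      simp only [h1, uu, h2] at k2
      rw [k1] at k2
      exact ⟨congrFun k1, fun y => (uu y _).symm.trans (congrFun k2 y).symm⟩

theorem nat_sw (j : Bw D) : (yf D (.sw j)).f β' = (yf D (.sw j)).f β :=
  integral_congr_ae (.of_forall fun y => by
    show ⟪yw D.F β' j.1.1 y, yw D.F β' j.1.2 y⟫_ℝ = ⟪yw D.F β j.1.1 y, yw D.F β j.1.2 y⟫_ℝ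
    rw [(rel_yw h hβ hβ' e _).1, (rel_yw h hβ hβ' e _).1, ((meY e y).phase (mY hβ') ζ).inner,
      (rel_yw h hβ hβ' e _).2])

theorem nat_s (j : B2 D) : (⟨(yf D (.re j)).f β', (yf D (.im j)).f β'⟩ : ℂ) =
    (ζ : ℂ) ^ 2 * ⟨(yf D (.re j)).f β, (yf D (.im j)).f β⟩ := by
  rw [f_cx hβ, f_cx hβ', ← integral_const_mul]
  refine integral_congr_ae (.of_forall fun y => ?_)
  simp only [(rel_yw h hβ hβ' e _).1]
  exact me_hm (meY e y) (mY hβ) (mY hβ') ζ _ _ ((rel_yw h hβ hβ' e _).2 y)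

end iso

variable (D) in
/-- **CRIT-NAT** -/
theorem natStmt : NatStmt D := fun h =>
  ⟨admV, fun _ _ => nat_eqv h.ok, fun _ _ _ _ => nat_A h.ok, fun _ _ _ _ => nat_P h.ok,
    fun _ _ _ _ => nat_sw h.ok, fun _ _ _ _ => nat_s h.ok⟩

end Crest.Agent.X212.Spn45
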