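import Mathlib

/-!
# X212 / SPIN (helper45), file Alg: pointwise Clifford algebra

`A` a real algebra, `p` an idempotent, `γ j` generators with `γ j γ k + γ k γ j = -2 δ p`.
* `inner`  : every derivation datum `τ` is inner;
* `omega4` : in dimension four the explicit solution `-η/4 - C η/32`, `η = ∑ γ τ`, `C T = -∑ γ T γ`;
* `Cl P p ρ` : the same for a spanning family with Gram matrix a projector `P` of trace four.
-/

set_option autoImplicit false
set_option linter.unusedSectionVars false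
set_option linter.unusedSimpArgs false
set_option linter.unusedVariables false

open Finset

namespace Crest.Agent.X212.Spn45

noncomputable section

variable {A : Type*} [Ring A] [Algebra ℝ A]

/-- orthonormal Clifford generators in the corner of `p` -/
structure ON {n : Type*} (p : A) (γ : n → A) : Prop where
  pl : ∀ j, p * γ j = γ j
  pr : ∀ j, γ j * p = γ j
  sq : ∀ j, γ j * γ j = -p
  ac : ∀ j k, j ≠ k → γ j * γ k = -(γ k * γ j)

/-- derivation data -/
structure Der {n : Type*} (p : A) (γ τ : n → A) : Prop where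
  pl : ∀ j, p * τ j = τ j
  pr : ∀ j, τ j * p = τ j
  rel : ∀ j k, τ j * γ k + γ j * τ k + τ k * γ j + γ k * τ j = 0

theorem two_cancel {x : A} (h : x + x = 0) : x = 0 := by
  have : (2 : ℝ) • x = 0 := by rw [two_smul]; exact h
  simpa using this

theorem Der.ac {n : Type*} {p : A} {γ τ : n → A} (h : Der p γ τ) (j : n) :
    τ j * γ j = -(γ j * τ j) := by
  have := h.rel j j
  have h2 : τ j * γ j + γ j * τ j = 0 := two_cancel (by rw [← this]; abel)
  exact eq_neg_of_add_eq_zero_left h2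

theorem Der.shift {n : Type*} [DecidableEq n] {p : A} {γ τ : n → A} (hγ : ON p γ) (h : Der p γ τ)
    {ω : A} (hl : p * ω = ω) (hr : ω * p = ω) :
    Der p γ (fun j => τ j + (ω * γ j - γ j * ω)) where
  pl j := by
    rw [mul_add, mul_sub, ← mul_assoc, ← mul_assoc, h.pl, hl, hγ.pl]
  pr j := by
    rw [add_mul, sub_mul, mul_assoc, mul_assoc, h.pr, hr, hγ.pr]
  rel j k := by
    have h1 := h.rel j k
    have h2 : ω * (γ j * γ k + γ k * γ j) = (γ j * γ k + γ k * γ j) * ω := by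
      by_cases hjk : j = k
      · subst hjk
        rw [hγ.sq, mul_add, add_mul, mul_neg, neg_mul, hl, hr]
      · rw [hγ.ac j k hjk]; simp
    have : (τ j + (ω * γ j - γ j * ω)) * γ k + γ j * (τ k + (ω * γ k - γ k * ω)) +
        (τ k + (ω * γ k - γ k * ω)) * γ j + γ k * (τ j + (ω * γ j - γ j * ω)) =
        (τ j * γ k + γ j * τ k + τ k * γ j + γ k * τ j) +
          (ω * (γ j * γ k + γ k * γ j) - (γ j * γ k + γ k * γ j) * ω) := by noncomm_ring
    rw [this, h1, h2]; simp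

/-- **every derivation datum is inner**, by an element commuting with a given grading -/
theorem inner_fin {n : Type*} [DecidableEq n] {p : A} {γ : n → A} (hγ : ON p γ) (G : A)
    (hG : ∀ j, G * γ j = -(γ j * G)) (s : Finset n) :
    ∀ τ : n → A, Der p γ τ → (∀ j, G * τ j = -(τ j * G)) →
      ∃ ω : A, p * ω = ω ∧ ω * p = ω ∧ G * ω = ω * G ∧
        ∀ j ∈ s, τ j + (ω * γ j - γ j * ω) = 0 := by
  induction s using Finset.induction_on with
  | empty => intro τ _ _; exact ⟨0, by simp, by simp, by simp, by simp⟩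
  | insert k s hk ih =>
    intro τ hτ hGτ
    obtain ⟨ω, hl, hr, hc, hs⟩ := ih τ hτ hGτ
    have h1 := hτ.shift hγ hl hr
    set τ' : n → A := fun j => τ j + (ω * γ j - γ j * ω) with hτ'
    have hG' : G * τ' k = -(τ' k * G) := by
      simp only [hτ']
      have e1 : G * (ω * γ k) = -(ω * γ k * G) := by
        rw [← mul_assoc, hc, mul_assoc, hG, mul_neg, mul_assoc]
      have e2 : G * (γ k * ω) = -(γ k * ω * G) := by
        rw [← mul_assoc, hG, neg_mul, mul_assoc, hc, mul_assoc]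
      rw [mul_add, mul_sub, hGτ, e1, e2]; noncomm_ring
    set β : A := (-(1 / 2 : ℝ)) • (γ k * τ' k) with hβ
    have hβk : β * γ k - γ k * β = -τ' k := by
      rw [hβ, smul_mul_assoc, mul_smul_comm, ← smul_sub, mul_assoc, h1.ac k, mul_neg,
        ← mul_assoc, hγ.sq, neg_mul, h1.pl]
      rw [neg_neg, sub_neg_eq_add, ← two_smul ℝ, smul_smul]; norm_num
    have hβj : ∀ j ∈ s, β * γ j - γ j * β = 0 := by
      intro j hj
      have hjk : k ≠ j := fun e => hk (e ▸ hj)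
      have h0 : τ' j = 0 := hs j hj
      have h2 := h1.rel j k
      rw [h0] at h2
      have h3 : τ' k * γ j = -(γ j * τ' k) := by
        apply eq_neg_of_add_eq_zero_left
        rw [← h2]; noncomm_ring
      rw [hβ, smul_mul_assoc, mul_smul_comm, ← smul_sub, mul_assoc, h3, mul_neg, ← mul_assoc,
        hγ.ac k j hjk, neg_mul, neg_neg, mul_assoc, sub_self, smul_zero]
    refine ⟨ω + β, ?_, ?_, ?_, ?_⟩
    · rw [mul_add, hl, hβ, mul_smul_comm, ← mul_assoc, hγ.pl]
    · rw [add_mul, hr, hβ, smul_mul_assoc, mul_assoc, h1.pr]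
    · rw [mul_add, add_mul, hc, hβ, mul_smul_comm, smul_mul_assoc, ← mul_assoc, hG, neg_mul,
        mul_assoc, hG', mul_neg, neg_neg, mul_assoc]
    · intro j hj
      have : τ j + ((ω + β) * γ j - γ j * (ω + β)) = τ' j + (β * γ j - γ j * β) := by
        simp only [hτ']; noncomm_ring
      rw [this]
      rcases Finset.mem_insert.1 hj with rfl | hj
      · rw [hβk]; simp
      · rw [hβj j hj, add_zero]; exact hs j hj

/-- the Casimir operator `T ↦ -∑ ρ T ρ` -/
def cas {ι : Type*} [Fintype ι] (ρ : ι → A) (T : A) : A := -∑ a, ρ a * T * ρ a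

/-- the trace `∑ ρ θ` -/
def eta {ι : Type*} [Fintype ι] (ρ θ : ι → A) : A := ∑ a, ρ a * θ a

/-- the explicit inner derivation in dimension four -/
def omega {ι : Type*} [Fintype ι] (ρ θ : ι → A) : A :=
  (-(1 / 4 : ℝ)) • eta ρ θ - (1 / 32 : ℝ) • cas ρ (eta ρ θ)

section four

variable {p : A} {γ : Fin 4 → A}

/-- conjugation by a generator -/
def sg (g : A) : A →ₗ[ℝ] A where
  toFun T := -(g * T * g)
  map_add' a b := by noncomm_ring
  map_smul' c a := by simp

theorem sg_apply (g T : A) : sg g T = -(g * T * g) := rfl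

theorem sg_sg (hγ : ON p γ) (j : Fin 4) {T : A} (hl : p * T = T) (hr : T * p = T) :
    sg (γ j) (sg (γ j) T) = T := by
  have : sg (γ j) (sg (γ j) T) = (γ j * γ j) * T * (γ j * γ j) := by
    simp only [sg_apply]; noncomm_ring
  rw [this, hγ.sq, neg_mul, hl, mul_neg, neg_mul, hr, neg_neg]

theorem sg_comm (hγ : ON p γ) (j k : Fin 4) (T : A) :
    sg (γ j) (sg (γ k) T) = sg (γ k) (sg (γ j) T) := by
  by_cases h : j = k
  · rw [h]
  have e : ∀ j k : Fin 4, sg (γ j) (sg (γ k) T) = (γ j * γ k) * T * (γ k * γ j) := by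
    intro j k; simp only [sg_apply]; noncomm_ring
  rw [e, e, hγ.ac j k h]; simp

theorem sg_pl (hγ : ON p γ) (j : Fin 4) (T : A) : p * sg (γ j) T = sg (γ j) T := by
  rw [sg_apply, mul_neg, ← mul_assoc, ← mul_assoc, hγ.pl]

theorem sg_pr (hγ : ON p γ) (j : Fin 4) (T : A) : sg (γ j) T * p = sg (γ j) T := by
  rw [sg_apply, neg_mul, mul_assoc, hγ.pr]

/-- the volume element -/
def vol (γ : Fin 4 → A) : A := γ 0 * γ 1 * γ 2 * γ 3

theorem vol_rev (hγ : ON p γ) : γ 3 * γ 2 * γ 1 * γ 0 = vol γ := by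
  have h01 := hγ.ac 1 0 (by decide)
  have h02 := hγ.ac 2 0 (by decide)
  have h03 := hγ.ac 3 0 (by decide)
  have h12 := hγ.ac 2 1 (by decide)
  have h13 := hγ.ac 3 1 (by decide)
  have h23 := hγ.ac 3 2 (by decide)
  have e1 : γ 3 * γ 2 * γ 1 * γ 0 = (γ 3 * γ 2) * (γ 1 * γ 0) := by noncomm_ring
  have e2 : (γ 2 * γ 3) * (γ 0 * γ 1) = γ 2 * (γ 3 * γ 0) * γ 1 := by noncomm_ring
  have e3 : γ 2 * (γ 0 * γ 3) * γ 1 = (γ 2 * γ 0) * (γ 3 * γ 1) := by noncomm_ring
  have e4 : (γ 0 * γ 2) * (γ 1 * γ 3) = γ 0 * (γ 2 * γ 1) * γ 3 := by noncomm_ring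
  rw [e1, h23, h01, neg_mul_neg, e2, h03, mul_neg, neg_mul, e3, h02, h13, neg_mul_neg, e4, h12,
    mul_neg, neg_mul, neg_neg, vol]
  noncomm_ring

theorem vol_sq (hγ : ON p γ) (hp : p * p = p) : vol γ * vol γ = p := by
  conv_lhs => rw [← vol_rev hγ]; arg 1; rw [vol_rev hγ, vol]
  have : γ 0 * γ 1 * γ 2 * γ 3 * (γ 3 * γ 2 * γ 1 * γ 0) =
      γ 0 * (γ 1 * (γ 2 * (γ 3 * γ 3) * γ 2) * γ 1) * γ 0 := by noncomm_ring
  rw [this, hγ.sq, mul_neg, hγ.pr, neg_mul, hγ.sq, neg_neg, hγ.pr, hγ.sq, mul_neg, hγ.pr, neg_mul,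
    hγ.sq, neg_neg]

theorem vol_ac (hγ : ON p γ) (j : Fin 4) : vol γ * γ j = -(γ j * vol γ) := by
  have h01 := hγ.ac 1 0 (by decide)
  have h02 := hγ.ac 2 0 (by decide)
  have h03 := hγ.ac 3 0 (by decide)
  have h12 := hγ.ac 2 1 (by decide)
  have h13 := hγ.ac 3 1 (by decide)
  have h23 := hγ.ac 3 2 (by decide)
  have m : ∀ {a b : A}, a * b = -(b * a) → ∀ x : A, a * (b * x) = -(b * (a * x)) := by
    intro a b h x; rw [← mul_assoc, h, neg_mul, mul_assoc]
  fin_cases j <;>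
    simp only [vol, mul_assoc, Fin.zero_eta, Fin.mk_one, Fin.reduceFinMk, Fin.isValue, h01, h02,
      h03, h12, h13, h23, m h01, m h02, m h03, m h12, m h13, m h23, mul_neg, neg_neg]

theorem sg_all (hγ : ON p γ) (hp : p * p = p) {T : A} (hl : p * T = T)
    (hc : vol γ * T = T * vol γ) :
    sg (γ 0) (sg (γ 1) (sg (γ 2) (sg (γ 3) T))) = T := by
  have : sg (γ 0) (sg (γ 1) (sg (γ 2) (sg (γ 3) T))) = vol γ * T * (γ 3 * γ 2 * γ 1 * γ 0) := by
    simp only [sg_apply, vol]; noncomm_ring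
  rw [this, vol_rev hγ, mul_assoc, ← hc, ← mul_assoc, vol_sq hγ hp, hl]

theorem cas_four (T : A) :
    cas γ T = sg (γ 0) T + sg (γ 1) T + sg (γ 2) T + sg (γ 3) T := by
  simp only [cas, Fin.sum_univ_four, sg_apply]; abel

/-- `C (C + 4) T` is fixed by all conjugations, for even `T` -/
theorem sg_cas (hγ : ON p γ) (hp : p * p = p) {T : A} (hl : p * T = T) (hr : T * p = T)
    (hc : vol γ * T = T * vol γ) (j : Fin 4) :
    sg (γ j) (cas γ (cas γ T) + (4 : ℝ) • cas γ T) = cas γ (cas γ T) + (4 : ℝ) • cas γ T := by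
  have hall := sg_all hγ hp hl hc
  have s := fun j => sg_sg hγ j hl hr
  have s' := fun j k => sg_sg hγ j (sg_pl hγ k T) (sg_pr hγ k T)
  have c := sg_comm hγ
  -- `σ₂ σ₃ = σ₀ σ₁` and so on
  have a23 : sg (γ 2) (sg (γ 3) T) = sg (γ 0) (sg (γ 1) T) := by
    conv_rhs => rw [← hall, c 1 0, sg_sg hγ 0 (sg_pl hγ _ _) (sg_pr hγ _ _),
      sg_sg hγ 1 (sg_pl hγ _ _) (sg_pr hγ _ _)]
  have a3 : sg (γ 0) (sg (γ 1) (sg (γ 2) T)) = sg (γ 3) T := by
    rw [c 1 2, c 0 2, ← a23, s']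
  have a2 : sg (γ 0) (sg (γ 1) (sg (γ 3) T)) = sg (γ 2) T := by
    rw [c 1 3, c 0 3, ← a23, c 2 3, s']
  have a13 : sg (γ 1) (sg (γ 3) T) = sg (γ 0) (sg (γ 2) T) := by
    rw [← a2, sg_sg hγ 0 (sg_pl hγ _ _) (sg_pr hγ _ _)]
  have a12 : sg (γ 1) (sg (γ 2) T) = sg (γ 0) (sg (γ 3) T) := by
    rw [← a3, sg_sg hγ 0 (sg_pl hγ _ _) (sg_pr hγ _ _)]
  have a1 : sg (γ 0) (sg (γ 2) (sg (γ 3) T)) = sg (γ 1) T := by rw [a23, s']
  have key : cas γ (cas γ T) + (4 : ℝ) • cas γ T = (4 : ℝ) • (T + sg (γ 0) T + sg (γ 1) T +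
      sg (γ 2) T + sg (γ 3) T + sg (γ 0) (sg (γ 1) T) + sg (γ 0) (sg (γ 2) T) +
      sg (γ 0) (sg (γ 3) T)) := by
    simp only [cas_four, map_add, s, c 1 0, c 2 0, c 3 0, c 2 1, c 3 1, c 3 2, a23, a13, a12]
    module
  rw [key, map_smul]
  congr 1
  fin_cases j
  · simp only [Fin.zero_eta, map_add, s, s']; abel
  · simp only [Fin.mk_one, map_add, s, s', c 1 0, a2, a3, a13, a12]; abel
  · simp only [Fin.reduceFinMk, map_add, s, s', c 2 0, c 2 1, a1, a3, a23, a12]; abel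
  · simp only [Fin.reduceFinMk, map_add, s, s', c 3 0, c 3 1, c 3 2, a1, a2, a23, a13]; abel

theorem comm_of_sg (hγ : ON p γ) (j : Fin 4) {T : A} (hr : T * p = T) (h : sg (γ j) T = T) :
    T * γ j = γ j * T := by
  conv_lhs => rw [← h, sg_apply, neg_mul, mul_assoc, hγ.sq, mul_neg, neg_neg, mul_assoc, hr]

/-- **the explicit solution** -/
theorem omega4 (hγ : ON p γ) (hp : p * p = p) {τ : Fin 4 → A} (hτ : Der p γ τ)
    (hv : ∀ j, vol γ * τ j = -(τ j * vol γ)) (j : Fin 4) :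
    τ j + (omega γ τ * γ j - γ j * omega γ τ) = 0 := by
  obtain ⟨ω, hl, hr, hc, hs⟩ := inner_fin hγ (vol γ) (vol_ac hγ) Finset.univ τ hτ hv
  have hτe : ∀ k, τ k = γ k * ω - ω * γ k := fun k => by
    have := hs k (Finset.mem_univ k)
    rw [eq_neg_of_add_eq_zero_left this]; abel
  have he : eta γ τ = cas γ ω - (4 : ℝ) • ω := by
    have : ∀ k, γ k * τ k = -(γ k * ω * γ k) - ω := fun k => by
      rw [hτe, mul_sub, ← mul_assoc, ← mul_assoc, hγ.sq, neg_mul, hl]; abel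
    simp only [eta, cas, this, Fin.sum_univ_four]
    module
  have hlin : cas γ (cas γ ω - (4 : ℝ) • ω) = cas γ (cas γ ω) - (4 : ℝ) • cas γ ω := by
    simp only [cas_four, map_sub, map_add, map_smul]
    module
  set Z := cas γ (cas γ ω) + (4 : ℝ) • cas γ ω with hZ
  have ho : omega γ τ = ω - (1 / 32 : ℝ) • Z := by
    rw [omega, he, hlin, hZ]; module
  have hZr : Z * p = Z := by
    simp only [hZ, cas_four, add_mul, smul_mul_assoc, sg_pr hγ]
  have hZc := comm_of_sg hγ j hZr (sg_cas hγ hp hl hr hc j)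
  rw [ho, sub_mul, mul_sub, smul_mul_assoc, mul_smul_comm, hZc, hτe]
  abel

end four

end

end Crest.Agent.X212.Spn45
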