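import Crest.Agent.X212.Crt72.Alg
import Mathlib.Analysis.Complex.Circle

/-!
# Row 212, CRIT-LIFT (helper45): perturbations are invariant functions of finitely many invariants
-/

set_option autoImplicit false
noncomputable section
open scoped ContDiff ComplexConjugate

namespace Crest.Agent.X212.Spn45
open Crt72 Crt72.GM

variable {Bc Bw B2 : Type} {Q : GM Bc Bw B2}

variable (B2) in
/-- the invariants of weight zero -/
def i0 : Bc ⊕ Bw → Bs Bc Bw B2 := Sum.elim .cy .sw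

variable (Q) in
/-- `q` is a smooth invariant function of finitely many basic invariants -/
def Rp (q : Q.Fd) : Prop := ∃ (J0 J2 : Type) (_ : Fintype J0) (_ : Fintype J2) (a : J0 → Bc ⊕ Bw)
  (s : J2 → B2) (φ : (J0 → ℝ) × (J2 → ℂ) → ℝ), ContDiff ℝ ∞ φ ∧
    (∀ (ζ : Circle) x y, φ (x, (ζ : ℂ) • y) = φ (x, y)) ∧
    ∀ o v, q o v = φ (fun j => Q.f (i0 B2 (a j)) o v, fun j => Q.s (s j) o v)

theorem Rp.bin {p q : Q.Fd} (hp : Rp Q p) (hq : Rp Q q) {g : ℝ × ℝ → ℝ} (hg : ContDiff ℝ ∞ g) :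
    Rp Q fun o v => g (p o v, q o v) := by
  obtain ⟨J0, J2, _, _, a, s, φ, h1, h2, h3⟩ := hp
  obtain ⟨J0', J2', _, _, a', s', φ', h1', h2', h3'⟩ := hq
  exact ⟨J0 ⊕ J0', J2 ⊕ J2', inferInstance, inferInstance, Sum.elim a a', Sum.elim s s',
    fun z => g (φ (fun j => z.1 (.inl j), fun j => z.2 (.inl j)),
      φ' (fun j => z.1 (.inr j), fun j => z.2 (.inr j))), by fun_prop,
    fun ζ x y => congrArg g (Prod.ext (h2 ζ _ _) (h2' ζ _ _)),
    fun o v => congrArg g (Prod.ext (h3 o v) (h3' o v))⟩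

theorem rp_f (j : Bc ⊕ Bw) : Rp Q (Q.f (i0 B2 j)) :=
  ⟨Unit, Empty, inferInstance, inferInstance, fun _ => j, Empty.elim, fun z => z.1 (), by fun_prop,
    fun _ _ _ => rfl, fun _ _ => rfl⟩

theorem rp_s (L : ℂ →L[ℝ] ℝ) (p : B2 × B2) {q : Q.Fd}
    (h : ∀ o v, q o v = L (conj (Q.s p.1 o v) * Q.s p.2 o v)) : Rp Q q :=
  ⟨Empty, Bool, inferInstance, inferInstance, Empty.elim, fun b => bif b then p.1 else p.2,
    fun z => L (conj (z.2 true) * z.2 false),
    L.contDiff.comp ((Complex.conjCLE.contDiff.comp (by fun_prop)).mul (by fun_prop)),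
    fun ζ x y => congrArg L (by
      simp only [Pi.smul_apply, smul_eq_mul, map_mul]
      rw [mul_mul_mul_comm, ← Complex.normSq_eq_conj_mul_self, Circle.normSq_coe]
      simp), h⟩

theorem exists_rep {q : Q.Fd} (hq : q ∈ Q.Rl) : Rp Q q := by
  induction hq using Algebra.adjoin_induction with
  | mem x hx =>
    obtain ((⟨j, rfl⟩ | ⟨j, rfl⟩) | ⟨j, rfl⟩) | ⟨j, rfl⟩ := hx
    exacts [rp_f (.inl j), rp_f (.inr j), rp_s Complex.reCLM j fun o v => by simp [GM.s],
      rp_s Complex.imCLM j fun o v => by simp [GM.s, sub_eq_add_neg]]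
  | algebraMap c =>
    exact ⟨Empty, Empty, inferInstance, inferInstance, Empty.elim, Empty.elim, fun _ => c,
      contDiff_const, fun _ _ _ => rfl, fun _ _ => rfl⟩
  | add x y _ _ hx hy => exact hx.bin hy contDiff_add
  | mul x y _ _ hx hy => exact hx.bin hy contDiff_mul

/-- the chain rule -/
theorem isGr_comp (A : Q.AxSm) {J : Type} [Fintype J] [DecidableEq J] (ι : J → Bs Bc Bw B2)
    {Φ : (J → ℝ) → ℝ} (hΦ : ContDiff ℝ ∞ Φ) : Q.IsGr (fun o v => Φ fun j => Q.f (ι j) o v)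
      fun o v => ∑ j, fderiv ℝ Φ (fun j => Q.f (ι j) o v) (Pi.single j 1) • Q.τ (ι j) o v :=
  fun o => ⟨ContDiff.sum fun j _ => (((hΦ.fderiv_right le_rfl).comp (contDiff_pi.2 fun j =>
    (A.isGr _).contDiff o)).clm_apply contDiff_const).smul (A.sm _ o), fun v => by
    refine ((hΦ.differentiable (by simp) _).hasFDerivAt.comp v
      (hasFDerivAt_pi.2 fun j => A.grad (ι j) o v)).congr_fderiv (ContinuousLinearMap.ext fun u => ?_)
    rw [ContinuousLinearMap.comp_apply, pi_eq_sum_univ' (ContinuousLinearMap.pi _ u)]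
    simp only [map_sum, map_smul, ContinuousLinearMap.pi_apply, sum_apply, smul_apply, smul_eq_mul,
      mul_comm]⟩

end Crest.Agent.X212.Spn45
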