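import Crest.Agent.X212.Spn45.Eqs
import Crest.Agent.X212.Spn45.Rep
import Crest.Agent.X212.Cgr76.Y
import Mathlib.Geometry.Manifold.WhitneyEmbedding

/-!
# Row 212, CRIT-LIFT (helper45): the perturbations of the model are neck terms
-/

set_option autoImplicit false
set_option linter.unusedSectionVars false
noncomputable section
open scoped Manifold ContDiff Topology InnerProductSpace
open MeasureTheory Set Function Filter

namespace Crest.Agent.X212.Spn45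
open An Wz78 Cyf70 Dgr80 Nd18 Crt72 Cgr76 Sob92

variable {E3 : Type} [NormedAddCommGroup E3] [NormedSpace ℝ E3] [FiniteDimensional ℝ E3]
  [MeasurableSpace E3] [BorelSpace E3]
  {H3 : Type} [TopologicalSpace H3] {I3 : ModelWithCorners ℝ E3 H3} [I3.Boundaryless]
  {Y : Type} [TopologicalSpace Y] [ChartedSpace H3 Y] [IsManifold I3 ∞ Y] [T2Space Y]
  [MeasurableSpace Y] [BorelSpace Y] [SecondCountableTopology Y] [CompactSpace Y]
  {κ : Type} [Fintype κ] {lam : Type} [Fintype lam] {D : YD I3 Y κ lam} {β : YC Y κ lam}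

theorem exists_yy (F : Pre I3 Y κ) : ∃ (n : ℕ) (y : Fin n → Y → ℝ), (∀ i, Sm I3 (y i)) ∧
    ∀ x (ξ : κ → ℝ), (∀ i, ∑ a, ξ a * F.D a (y i) x = 0) → ∑ a, ξ a • F.e a x = 0 := by
  obtain ⟨n, e, h1, -, h2⟩ := exists_embedding_euclidean_of_compact (I := I3) (M := Y)
  refine ⟨n, fun i x => EuclideanSpace.proj i (e x),
    fun i => (EuclideanSpace.proj i).contMDiff.comp h1,
    fun x ξ h => h2 x (Eq.trans (PiLp.ext fun i => ?_) (map_zero _).symm)⟩
  let L : E3 →L[ℝ] ℝ := EuclideanSpace.proj i ∘L mfderiv I3 (𝓡 n) e x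
  exact (map_sum L _ _).trans ((Finset.sum_congr rfl fun a _ => (map_smul L _ _).trans
    (congrArg (ξ a * ·) (dv_clm (EuclideanSpace.proj i) (h1.mdifferentiable (by simp) x)).symm)).trans
      (h i))

theorem sm_cx (N : ND Y lam) : ContDiff ℝ ∞ N.cx :=
  (contDiff_pi.2 fun _ => contDiff_apply ℝ ℝ _).prodMk (contDiff_pi.2 fun _ =>
    Complex.equivRealProdCLM.symm.contDiff.comp
      ((contDiff_apply ℝ ℝ _).prodMk (contDiff_apply ℝ ℝ _)))

theorem cv_zero {j : ℕ} : Cgr76.cv D β (0 : CC D β j) = cn β := funext₂ fun a y => by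
  simp only [Cgr76.cv, Prod.fst_zero, val_zero, Pi.zero_apply, PiLp.zero_apply, map_zero, add_zero]

theorem sv_zero {j : ℕ} : sv D β (0 : CC D β j) = β.Φ := funext fun y => by
  simp only [sv, Prod.snd_zero, val_zero, Pi.zero_apply, add_zero]

theorem vz_eq (y : SP D β) (τ : Pt (Y × ℝ) (Option κ) lam 0 0) {α : Y → Fm (Option κ) β.m.A}
    {φ : Y → β.m.V} {ε : ℝ} (h1 : ∀ z, ε • α z = up κ _ (y.1.1 z)) (h2 : ∀ z, ε • φ z = y.2.1 z)
    (x : Y × ℝ) : @Eq β.m.V ((ND.vz β α φ ε).eD D.G τ x) ((cy (cf y)).eD D.G τ x) ∧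
      @Eq (Fm _ β.m.A) ((ND.vz β α φ ε).eC D.B D.G τ x) ((cy (cf y)).eC D.B D.G τ x) :=
  ⟨congrArg₂ (γ := β.m.V) (fun a b => (vr (cy β) a b).eD D.G τ x) (funext fun x => h1 x.1)
    (funext fun x => h2 x.1), congrArg₂ (γ := Fm _ β.m.A)
      (fun a b => (vr (cy β) a b).eC D.B D.G τ x) (funext fun x => h1 x.1) (funext fun x => h2 x.1)⟩

section rz
variable {N : ND Y lam} {ι : N.J → BB D}

variable (ι β) in
/-- the coefficients of the gradient -/
def cfs (j : N.J) : ℝ :=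
  fderiv ℝ (fun x => N.φ (N.cx x)) (fun j => (yf D (ι j)).f β) (Pi.single j 1)

/-- the standing hypotheses -/
structure Hz (N : ND Y lam) (ι : N.J → BB D) : Prop where
  h : HY D
  V : AdmV D
  op : Op3 D
  s : ∀ j, Sm1 D j
  l : ∀ j, Lift D j
  d : ∀ j, (N.dg D.nk).d j = den D (ι j)
  ok : N.OK D

namespace Hz
variable (H : Hz N ι)
include H

theorem Iv_eq (hβ : D.Adm β) (t : ℝ) :
    (N.dg D.nk).Iv D.Z (cy β) t = fun j => (yf D (ι j)).f β :=
  funext fun j => by rw [DG.Iv, H.d]; exact (H.l _ β hβ).1 _ t H.ok.δ0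

theorem β_eq (hβ : D.Adm β) (j : N.J) (s : ℝ) : (N.dg D.nk).β D.Z (cy β) j s = cfs β ι j := by
  have h1 : ∀ t, (N.dg D.nk).co D.Z (cy β) j t = cfs β ι j := fun t => by
    rw [DG.co, H.Iv_eq hβ]
    exact (congrArg (· * cfs β ι j) (mul_one (1 : ℝ))).trans (one_mul _)
  simp only [DG.β, Dgr80.cv, h1]
  rw [integral_const_mul]
  exact (congrArg (_ * ·) (integral_b_sub H.ok.δ0 s)).trans (mul_one _)

theorem g_eq (hβ : D.Adm β) (x : Y × ℝ) :
    dw κ β.m.A ((N.dg D.nk).gA D.Z (cy β) x) = ∑ j, cfs β ι j • (yf D (ι j)).gA β x.1 ∧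
      (N.dg D.nk).gP D.Z (cy β) x = ∑ j, cfs β ι j • (yf D (ι j)).gP β x.1 := by
  simp only [DG.gA, DG.gP, H.β_eq hβ, H.d]
  exact ⟨(map_sum _ _ _).trans (Finset.sum_congr rfl fun j _ => ((H.l _ β hβ).2 _ x).1),
    Finset.sum_congr rfl fun j _ => ((H.l _ β hβ).2 _ x).2⟩

variable {k : ℕ} (hk : 7 ≤ k) {act : ActT D k} {sf : SfT D} (x : XY D) (y : SP D x.1)
include hk

theorem f_pt (j : BB D) : (gm D k act sf).f j x (pt D x.1 (k + 1) y) = (yf D j).f (cf y) :=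
  (Classical.epsilon_spec ((H.s j).f x.1 x.2 k hk)).2 y

theorem τ_pt (j : BB D) (z : Y) :
    D.F.val k _ ((gm D k act sf).τ j x (pt D x.1 (k + 1) y)).1 z =
      pc D x.1 z ((yf D j).gA (cf y) z) ∧
    D.F.val k _ ((gm D k act sf).τ j x (pt D x.1 (k + 1) y)).2 z =
      pv D x.1 z ((yf D j).gP (cf y) z) :=
  have h := (Classical.epsilon_spec ((H.s j).T x.1 x.2 k hk)).2 y z
  ⟨(congrFun (val_incl (hS H.h) (by omega) k.le_succ _) z).trans h.1,
    (congrFun (val_incl (hS H.h) (by omega) k.le_succ _) z).trans h.2⟩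

variable (A : (gm D k act sf).AxOp) (A' : (gm D k act sf).AxSm) {q : (gm D k act sf).Fd}
  (hq : q = fun o v => N.φ (N.cx fun j => (gm D k act sf).f (ι j) o v))
include A A' hq

theorem gr_pt (z : Y × ℝ) :
    D.F.val k _ ((gm D k act sf).gr q x (pt D x.1 (k + 1) y)).1 z.1 =
      pc D x.1 z.1 (dw κ _ ((N.dg D.nk).gA D.Z (cy (cf y)) z)) ∧
    D.F.val k _ ((gm D k act sf).gr q x (pt D x.1 (k + 1) y)).2 z.1 =
      pv D x.1 z.1 ((N.dg D.nk).gP D.Z (cy (cf y)) z) := by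
  have h1 := H.g_eq (H.V _ x.2 y) z
  have h2 : (gm D k act sf).gr q x (pt D x.1 (k + 1) y) =
      ∑ j, cfs (cf y) ι j • (gm D k act sf).τ (ι j) x (pt D x.1 (k + 1) y) := by
    rw [hq, A.gr_eq (isGr_comp A' ι (Φ := fun x => N.φ (N.cx x)) (H.ok.sm.comp (sm_cx N)))]
    simp only [H.f_pt hk, cfs]
  rw [h2]
  exact ⟨(map_sum (D.F.ev k _ z.1 ∘L ContinuousLinearMap.fst ℝ _ _) _ _).trans
    ((Finset.sum_congr rfl fun j _ => (map_smul _ _ _).trans ((congrArg (_ • ·)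
      (H.τ_pt hk x y _ z.1).1).trans (map_smul _ _ _).symm)).trans
        ((congrArg (pc D x.1 z.1) h1.1).trans (map_sum _ _ _)).symm),
    (map_sum (D.F.ev k _ z.1 ∘L ContinuousLinearMap.snd ℝ _ _) _ _).trans
    ((Finset.sum_congr rfl fun j _ => (map_smul _ _ _).trans ((congrArg (_ • ·)
      (H.τ_pt hk x y _ z.1).2).trans (map_smul _ _ _).symm)).trans
        ((congrArg (pv D x.1 z.1) h1.2).trans (map_sum _ _ _)).symm)⟩

theorem key (z : Y × ℝ) :
    (∀ a, (cy (cf y)).eC D.B D.G (N.q1 D.nk : Pt _ _ _ 0 0) z (none, some a) =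
      (2 : ℝ) • D.F.val k _ ((gm D k act sf).F q x (pt D x.1 (k + 1) y)).1 z.1 a) ∧
    -x.1.m.ρ none z.1 ((cy (cf y)).eD D.G (N.q1 D.nk : Pt _ _ _ 0 0) z) =
      D.F.val k _ ((gm D k act sf).F q x (pt D x.1 (k + 1) y)).2 z.1 :=
  have h0 := (Classical.epsilon_spec ((H.op x.1 x.2).2 k hk)).2 y z.1
  have h1 := H.gr_pt hk x y A A' hq z
  ⟨fun a => (eC_row (β := cf y) H.h.ok (N.dg D.nk) nk_τ z a).trans (congrArg ((2 : ℝ) • ·)
      ((congrArg₂ (fun u v : Fm κ x.1.m.A => u a + v a) h0.1 h1.1).symm.trans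
        (congrArg (fun u : Fm κ x.1.m.A => u a) (map_add (D.F.ev k _ z.1) _ _).symm))),
    (eD_row H.h.ok (H.V _ x.2 y) (N.dg D.nk) nk_τ z).trans
      ((congrArg₂ (fun u v : x.1.m.V => u + v) h0.2 h1.2).symm.trans
        (map_add (D.F.ev k _ z.1) _ _).symm)⟩

theorem crit : N.Crit D (cf y) ↔ (gm D k act sf).F q x (pt D x.1 (k + 1) y) = 0 := by
  have h1 := H.key hk x y A A' hq
  refine ⟨fun c => cc_ext H.h (by omega) (fun z a => ?_) fun z => ?_, fun e =>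
    ⟨⟨(H.V _ x.2 y).adm, fun z => eD_zero (H.V _ x.2 y) _ nk_τ ((h1 z).2.trans ?_),
      fun z => eC_zero H.h.ok _ fun a => ((h1 z).1 a).trans ?_, fun _ => rfl⟩, (H.V _ x.2 y).tmp⟩⟩
  · have h2 := (h1 (z, 0)).1 a
    rw [c.sol.C] at h2
    exact ((smul_eq_zero_iff_right two_ne_zero).1 h2.symm).trans
      (congrArg (fun u : Fm κ x.1.m.A => u a) (map_zero (D.F.ev k _ z)).symm)
  · have h2 := (h1 (z, 0)).2
    rw [c.sol.D] at h2
    exact h2.symm.trans (((congrArg Neg.neg (map_zero _)).trans neg_zero).trans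
      (map_zero (D.F.ev k _ z)).symm)
  · rw [e]; exact map_zero (D.F.ev k _ z.1)
  · rw [e]
    exact (congrArg (fun u : Fm κ x.1.m.A => (2 : ℝ) • u a) (map_zero (D.F.ev k _ z.1))).trans
      (smul_zero _)

theorem dF : HasDerivAt (fun ε : ℝ => (gm D k act sf).F q x (pt D x.1 (k + 1) (ε • y)))
    (fderiv ℝ ((gm D k act sf).F q x) 0 (pt D x.1 (k + 1) y)) 0 := by
  have sF : ContDiff ℝ ∞ ((gm D k act sf).F q x) := (A.sm0 x).add
    (Classical.epsilon_spec (p := (gm D k act sf).IsGr q) ⟨_, hq ▸ isGr_comp A' ι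
      (Φ := fun x => N.φ (N.cx x)) (H.ok.sm.comp (sm_cx N))⟩ x).1
  have := (sF.differentiable (by simp) 0).hasFDerivAt.hasLineDerivAt (pt D x.1 (k + 1) y)
  simp only [HasLineDerivAt, zero_add, map_smul] at this ⊢
  exact this

theorem ker (dD : ∀ z, HasDerivAt (F := x.1.m.V)
      (fun ε : ℝ => (cy (cf (ε • y))).eD D.G (N.q1 D.nk : Pt _ _ _ 0 0) z) 0 0)
    (dC : ∀ z s, HasDerivAt (F := x.1.m.A)
      (fun ε : ℝ => (cy (cf (ε • y))).eC D.B D.G (N.q1 D.nk : Pt _ _ _ 0 0) z s) 0 0) :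
    fderiv ℝ ((gm D k act sf).F q x) 0 (pt D x.1 (k + 1) y) = 0 := by
  have h0 := H.dF hk x y A A' hq
  refine cc_ext H.h (by omega) (fun z a => ?_) fun z => ?_
  · let L : CC D x.1 k →L[ℝ] x.1.m.A :=
      (2 : ℝ) • Map77.pj _ a ∘L D.F.ev k _ z ∘L ContinuousLinearMap.fst ℝ _ _
    have d1 := (L.hasFDerivAt.comp_hasDerivAt 0 h0).unique
      ((dC (z, 0) (none, some a)).congr_of_eventuallyEq (.of_forall fun ε =>
        ((H.key hk x (ε • y) A A' hq (z, 0)).1 a).symm))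
    exact ((smul_eq_zero_iff_right (two_ne_zero' ℝ)).1 d1).trans
      (congrArg (fun u : Fm κ x.1.m.A => u a) (map_zero (D.F.ev k _ z)).symm)
  · let L : CC D x.1 k →L[ℝ] x.1.m.V := D.F.ev k _ z ∘L ContinuousLinearMap.snd ℝ _ _
    have d1 := (L.hasFDerivAt.comp_hasDerivAt 0 h0).unique
      (((-x.1.m.ρ none z).hasFDerivAt.comp_hasDerivAt 0 (dD (z, 0))).congr_of_eventuallyEq
        (.of_forall fun ε => (H.key hk x (ε • y) A A' hq (z, 0)).2.symm))
    exact (d1.trans (map_zero _)).trans (map_zero (D.F.ev k _ z)).symm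

omit A A' hq in
theorem gau {η : GG D x.1 (k + 2) × ℝ}
    (hη : pt D x.1 (k + 1) y = Crt72.dv D x.1 (k + 1) 0 η.1 + η.2 • jv D x.1 (k + 1) 0) :
    ∃ (ξ : Y → x.1.m.A) (c : ℝ), Sm I3 ξ ∧ (∀ z, ξ z ∈ x.1.m.gS z) ∧
      (∀ a z, y.1.1 z a = -nab I3 D.F.e (fun a => x.1.m.adW x.1.W (some a)) a ξ z) ∧
      ∀ z, y.2.1 z = opL (ξ z) (x.1.Φ z) + c • x.1.m.J (x.1.Φ z) := by
  have e1 : ∀ a z, y.1.1 z a =
      -nab I3 D.F.e (fun a => x.1.m.adW x.1.W (some a)) a (D.F.val _ _ η.1) z := fun a z => by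
    have h1 := val_dv1 H.h x.2 (hk.trans k.le_succ) 0 η.1 z a
    rw [cv_zero] at h1
    refine (congrArg (· z a) (val_pt1 H.h (j := k + 1) (by omega) y)).symm.trans (Eq.trans ?_ h1)
    simp only [hη, Prod.fst_add, Prod.smul_fst, jv, smul_zero, add_zero]
  refine ⟨D.F.val _ _ η.1, η.2, Grp76.sm_of_lin (F := D.F.toPre)
    (val_DH (hS H.h) (by omega) η.1).1 (A := fun a z => -adcL (cn x.1 a z))
    (B := fun a z => -Map77.pj _ a (y.1.1 z))
    (fun a => (adcL.contMDiff.comp (sm_cn x.2 a)).neg)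
    (fun a => ((Map77.pj _ a).contMDiff.comp y.1.2.1).neg) fun a z => ?_,
    fun z => val_proj (hS H.h) (by omega) η.1 z ▸ pg_mem z _, e1, fun z => ?_⟩
  · rw [Map77.pj_apply, e1, neg_neg]
    exact (neg_add_cancel_comm_assoc _ _).symm
  · refine (congrFun (val_pt2 H.h (j := k + 1) (by omega) y) z).symm.trans ?_
    rw [hη, Prod.snd_add, val_add, Prod.smul_snd, val_smul, Pi.add_apply, Pi.smul_apply,
      val_dv2 H.h x.2 (hk.trans k.le_succ), val_jv2 H.h x.2 (by omega), sv_zero]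

omit y in
theorem nd (hx : (gm D k act sf).ND q x) : N.Nondeg D x.1 := fun α φ sα sφ pα α0 pφ dD dC => by
  let y : SP D x.1 := (⟨fun z => dw κ _ (α z), (dw κ _).contMDiff.comp sα, .of_compactSpace _,
    fun z => PiLp.ext fun a => (pc_dw (z, 0) _ a).trans (by
      have h1 := (Wz78.idx_apply _ _ _ _).symm.trans (congrArg (· (some a)) (pα z))
      rw [Fintype.sum_option] at h1
      exact (zero_add _).symm.trans ((congrArg (· + _) (zero_smul ℝ _).symm).trans h1))⟩,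
    ⟨φ, sφ, .of_compactSpace _, pφ⟩)
  have e : ∀ z, α z = up κ _ (y.1.1 z) := fun z => PiLp.ext fun a => by
    cases a
    exacts [α0 z, rfl]
  have v := fun ε : ℝ => vz_eq (ε • y) (N.q1 D.nk) (α := α) (φ := φ) (ε := ε)
    (fun z => (congrArg (ε • ·) (e z)).trans (map_smul (up κ _) ε _).symm) fun _ => rfl
  obtain ⟨η, hη⟩ := hx _ (H.ker hk x y A A' hq
    (fun z => (dD z).congr_of_eventuallyEq (.of_forall fun ε => (v ε z).1.symm))
    fun z s => (dC z s).congr_of_eventuallyEq (.of_forall fun ε =>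
      congrArg (fun u : Fm (Option κ × Option κ) x.1.m.A => u s) (v ε z).2.symm))
  exact H.gau hk x y hη

omit x y in
theorem rz : Rz D q N where
  ok := H.ok
  adm _ c := ⟨c.sol.toAdm, c.tmp⟩
  crit x := by
    have := H.crit hk x 0 A A' hq
    rwa [cf_zero, map_zero] at this
  nd x := H.nd hk x A A' hq
  val x y := by rw [hq, H.Iv_eq (H.V _ x.2 y)]; simp only [H.f_pt hk]
  gA x y z := (H.gr_pt hk x y A A' hq z).1
  gP x y z := (H.gr_pt hk x y A A' hq z).2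

end Hz
end rz

/-- the densities of weight zero -/
def y0 : Bc D ⊕ Bw D → YDen Y :=
  Sum.elim (fun d => .cy d.1.1.1 d.1.1.2 d.1.2.1 d.1.2.2) fun p => .sw p.1.1 p.1.2

variable (D)

theorem expStmt : ExpStmt D := fun h hV h3 hs hl δ h0 h1 => by
  classical
  obtain ⟨n, y, y1, y2⟩ := exists_yy D.F.toPre
  refine ⟨n, y, fun k hk act sf A A' q hq => ?_⟩
  obtain ⟨J0, J2, _, _, a, s, φ, p1, p2, p3⟩ := exists_rep hq
  let N : ND Y lam := ⟨J0, J2, fun j => y0 (a j), fun j => (s j).1, φ, δ, n, y⟩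
  refine ⟨N, Hz.rz (N := N) (ι := Sum.elim (fun j : J0 => i0 _ (a j))
    (Sum.elim (fun j : J2 => .re (s j)) fun j : J2 => .im (s j)))
    ⟨h, hV, h3, hs, hl, ?_, fun j => ?_, fun j => (s j).2, p1, p2, h0, h1, y1, y2⟩ hk A A'
    (funext₂ p3), rfl, rfl, HEq.rfl⟩
  · rintro (j | j | j)
    · show D.nk.den (y0 (a j)) = den D (i0 _ (a j))
      cases a j <;> rfl
    all_goals rfl
  · show (y0 (a j)).OK D.F
    rcases a j with d | d
    exacts [d.2, d.2]

theorem nrStmt : NrStmt D := fun h ⟨c, hc, hN⟩ h3 k hk act sf => ⟨√(c / 8), by positivity,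
  fun o hJ hL => by
  have h4 : 4 ≤ k := by omega
  have hΦ : ∀ y, o.1.Φ y = 0 := fun y => by
    have h1 := val_jv2 h o.2 (h4.trans k.le_succ) 0 y
    rw [show jv D o.1 (k + 1) 0 = 0 from hJ, sv_zero, Prod.snd_zero, val_zero] at h1
    have h2 := congrArg (fun T : En _ => T (o.1.Φ y)) (mok o.2).Jsq
    simp only [mul_apply_eq_comp, ← h1, Pi.zero_apply, map_zero] at h2
    exact neg_eq_zero.1 h2.symm
  set e : CC D o.1 k := mT D o.1 (YF.z0 D) (k + 1) k 0 with he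
  have h1 : ∀ y, D.F.val k _ e.1 y = (YF.z0 D).gA o.1 y := fun y => by
    have h1 := ((Classical.epsilon_spec ((h3 o.1 o.2).2 k hk)).2 0 y).1
    rwa [map_zero, (g_cf_zero _ _).1, pc_z0 h.ok] at h1
  have h2 : ∀ y, Map77.fa (D.F.val k _ (emb D o.1 2 k (e, 0)) y) =
      (2 : ℝ) • up κ _ ((YF.z0 D).gA o.1 y) := fun y => by
    simp only [emb, ContinuousLinearMap.coprod_apply, map_zero, add_zero, smul_apply, val_add,
      val_smul, Pi.add_apply, Pi.smul_apply]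
    rw [val_mulH (p := pc D o.1) (q := Crt72.ph D o.1) (f := fun _ => eA κ _) (hS h) h4 (Cb_const _)
      fun y v hv => Map77.maps_i1 y _ (p1_up hv 0), val_mulH (p := pv D o.1) (q := Crt72.ph D o.1)
      (f := fun _ => eP κ _) (hS h) h4 (Cb_const _) Map77.maps_i2, h1, map_add, map_smul]
    exact add_zero _
  have h5 : ∀ y a, (2 : ℝ) • (YF.z0 D).gA o.1 y a =
      (cy o.1).m.p2 D.B (y, 0) ((cy o.1).m.Fg D.Z (cy o.1).W (y, 0)) (none, some a) := fun y a => by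
    have h7 : ∀ v : o.1.m.V, o.1.m.pg y (hsL (rk1 (o.1.Φ y) v)) = 0 := fun v => by
      simp [rk1, hΦ]
    have h6 : (cy o.1).m.mu D.B (y, 0) (o.1.Φ y) (o.1.Φ y) = 0 := by
      rw [Md.mu, ← map_zero ((cy o.1).m.p2 D.B (y, 0))]
      exact congrArg _ (PiLp.ext fun s => h7 _)
    show (2 : ℝ) • (1 / 2 : ℝ) • ((cy o.1).m.p2 D.B (y, 0) _ -
      (cy o.1).m.mu D.B (y, 0) (o.1.Φ y) (o.1.Φ y) - 0) (none, some a) = _
    rw [h6, sub_zero, sub_zero, smul_smul]
    exact (congrArg (· • _) (by norm_num)).trans (one_smul ℝ _)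
  refine Real.sqrt_le_iff.2 ⟨norm_nonneg _, (div_le_iff₀' (by norm_num)).2
    ((hN o.1 o.2 (not_not.1 hL)).trans ?_)⟩
  rw [← real_inner_self_eq_norm_sq]
  refine (integral_mono_of_nonneg (.of_forall fun _ => by positivity)
    ((((continuous_val (hS h) h4 (emb D o.1 2 k (e, 0))).norm.pow 2).const_mul
      8).integrable_of_hasCompactSupport (.of_compactSpace _)) (.of_forall fun y => ?_)).trans_eq ?_
  · refine (norm_Fg h.ok o.2 (y, 0)).trans_le (mul_le_mul_of_nonneg_left (le_trans ?_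
      (pow_le_pow_left₀ (norm_nonneg _) (WithLp.norm_fst_le _
        (D.F.val k _ (emb D o.1 2 k (e, 0)) y)) 2)) (by norm_num))
    refine Eq.le (Eq.symm ((congrArg (‖·‖ ^ 2) (h2 y)).trans ?_))
    rw [PiLp.norm_sq_eq_of_L2, Fintype.sum_option]
    refine (congrArg₂ (· + ·) ?_ (Finset.sum_congr rfl fun a _ =>
      congrArg (‖·‖ ^ 2) (h5 y a))).trans (zero_add _)
    exact (pow_eq_zero_iff two_ne_zero).2 (norm_eq_zero.2 (smul_zero (A := o.1.m.A) (2 : ℝ)))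
  · rw [integral_const_mul]
    refine congrArg (8 * ·) (Eq.trans ?_ (inner_incl (hS h) h4 h4 _ _).symm)
    simp only [real_inner_self_eq_norm_sq]
    rfl⟩

end Crest.Agent.X212.Spn45
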