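import Crest.Agent.X212.Spn45.Alg
import Crest.Agent.X212.Std94.Proj

/-!
# X212 / SPIN (helper45), file Gen: derivations of a Clifford family are inner, explicitly

`omG ρ θ = -(C³ + 8 C² + 28 C + 96) η / 384`, `η = ∑ ρ θ`, `C T = -∑ ρ T ρ`, for a spanning family
with a Gram projector of trace four.
-/

set_option autoImplicit false
set_option linter.unusedSectionVars false

open Finset

namespace Crest.Agent.X212.Spn45
open Wz78 (Pr Cl)

noncomputable section

variable {A : Type*} [Ring A] [Algebra ℝ A] {ι : Type*} [Fintype ι]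

/-- `cas` as a linear map -/
def casL (ρ : ι → A) : A →ₗ[ℝ] A where
  toFun := cas ρ
  map_add' S T := by simp only [cas, mul_add, add_mul, sum_add_distrib, neg_add]
  map_smul' c T := by
    simp only [cas, mul_smul_comm, smul_mul_assoc, ← smul_sum, RingHom.id_apply, smul_neg]

theorem casL_apply (ρ : ι → A) (T : A) : casL ρ T = -∑ a, ρ a * T * ρ a := rfl

/-- the polynomial `-(C³ + 8 C² + 28 C + 96) / 384` -/
def sP (ρ : ι → A) : A →ₗ[ℝ] A :=
  (-(1 / 384 : ℝ)) • (casL ρ ∘ₗ casL ρ ∘ₗ casL ρ + (8 : ℝ) • (casL ρ ∘ₗ casL ρ) +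
    (28 : ℝ) • casL ρ + (96 : ℝ) • LinearMap.id)

theorem sP_apply (ρ : ι → A) (T : A) : sP ρ T = (-(1 / 384 : ℝ)) • (casL ρ (casL ρ (casL ρ T)) +
    (8 : ℝ) • casL ρ (casL ρ T) + (28 : ℝ) • casL ρ T + (96 : ℝ) • T) := rfl

/-- the explicit inner derivation -/
def omG (ρ θ : ι → A) : A := sP ρ (∑ a, ρ a * θ a)

/-- derivation data for a spanning family -/
structure DerP (P : ι → ι → ℝ) (p : A) (ρ θ : ι → A) : Prop where
  pl : ∀ a, p * θ a = θ a
  pr : ∀ a, θ a * p = θ a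
  rel : ∀ a b, θ a * ρ b + ρ a * θ b + θ b * ρ a + ρ b * θ a = 0
  proj : ∀ a, ∑ b, P a b • θ b = θ a

variable {P : ι → ι → ℝ} {p : A} {ρ θ : ι → A} {U : Fin 4 → ι → ℝ}

open Std94 (fr)

theorem sum_fr (hU : Std94.ON P U) {B : Type*} [AddCommGroup B] [Module ℝ B]
    (β : A →ₗ[ℝ] A →ₗ[ℝ] B) {σ : ι → A} (hσ : ∀ a, ∑ b, P a b • σ b = σ a) (ρ : ι → A) :
    ∑ i, β (fr U ρ i) (fr U σ i) = ∑ a, β (ρ a) (σ a) := by
  simp only [fr, map_sum, map_smul, LinearMap.sum_apply, LinearMap.smul_apply, smul_sum, smul_smul]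
  have e : ∑ a, β (ρ a) (σ a) = ∑ b, ∑ a, P a b • β (ρ a) (σ b) := by
    rw [sum_comm]
    refine sum_congr rfl fun a _ => ?_
    conv_lhs => rw [← hσ a, map_sum]
    simp only [map_smul]
  rw [sum_comm, e]
  refine sum_congr rfl fun b _ => ?_
  rw [sum_comm]
  refine sum_congr rfl fun a _ => ?_
  rw [← sum_smul, ← hU.P a b]
  simp only [mul_comm]

theorem on_fr (hU : Std94.ON P U) (h : Cl P p ρ) : ON p (fr U ρ) where
  pl j := by simp only [fr, mul_sum, mul_smul_comm, h.pl]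
  pr j := by simp only [fr, sum_mul, smul_mul_assoc, h.pr]
  sq j := by
    have := hU.rel h j j
    rw [if_pos rfl] at this
    have h2 : fr U ρ j * fr U ρ j + p + (fr U ρ j * fr U ρ j + p) = 0 := by
      rw [add_add_add_comm, this]; module
    exact eq_neg_of_add_eq_zero_left (two_cancel h2)
  ac j k hjk := by
    have := hU.rel h j k
    rw [if_neg hjk] at this
    exact eq_neg_of_add_eq_zero_left (by simpa using this)

theorem der_fr (U : Fin 4 → ι → ℝ) (h : DerP P p ρ θ) : Der p (fr U ρ) (fr U θ) where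
  pl j := by simp only [fr, mul_sum, mul_smul_comm, h.pl]
  pr j := by simp only [fr, sum_mul, smul_mul_assoc, h.pr]
  rel j k := by
    have e : ∀ (x y : ι → ℝ) (σ τ : ι → A), (∑ a, x a • σ a) * (∑ b, y b • τ b) =
        ∑ a, ∑ b, (x a * y b) • (σ a * τ b) := by
      intro x y σ τ
      simp only [sum_mul_sum, smul_mul_smul_comm]
    have e' : ∀ (x y : ι → ℝ) (σ τ : ι → A), (∑ b, y b • σ b) * (∑ a, x a • τ a) =
        ∑ a, ∑ b, (x a * y b) • (σ b * τ a) := by
      intro x y σ τ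
      rw [e, sum_comm]; simp only [mul_comm]
    simp only [fr]
    rw [e, e, e' (U j) (U k), e' (U j) (U k)]
    simp only [← sum_add_distrib, ← smul_add, h.rel, smul_zero, sum_const_zero]

theorem casL_fr (hU : Std94.ON P U) (h : Cl P p ρ) (T : A) :
    casL ρ T = ∑ i, sg (fr U ρ i) T := by
  have := sum_fr hU ((LinearMap.mul ℝ A) ∘ₗ (LinearMap.mulRight ℝ T)) h.proj ρ
  simp only [LinearMap.comp_apply, LinearMap.mulRight_apply, LinearMap.mul_apply'] at this
  simp only [casL_apply, sg_apply, sum_neg_distrib, this]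

theorem casL_pl (h : Cl P p ρ) (T : A) : p * casL ρ T = casL ρ T := by
  simp only [casL_apply, mul_neg, mul_sum, ← mul_assoc, h.pl]

theorem casL_pr (h : Cl P p ρ) (T : A) : casL ρ T * p = casL ρ T := by
  simp only [casL_apply, neg_mul, sum_mul, mul_assoc, h.pr]

theorem omG_pl (h : Cl P p ρ) : p * omG ρ θ = omG ρ θ := by
  have : p * ∑ a, ρ a * θ a = ∑ a, ρ a * θ a := by simp only [mul_sum, ← mul_assoc, h.pl]
  simp only [omG, sP_apply, mul_smul_comm, mul_add, casL_pl h, this]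

theorem omG_pr (h : Cl P p ρ) (hθ : ∀ a, θ a * p = θ a) : omG ρ θ * p = omG ρ θ := by
  have : (∑ a, ρ a * θ a) * p = ∑ a, ρ a * θ a := by simp only [sum_mul, mul_assoc, hθ]
  simp only [omG, sP_apply, smul_mul_assoc, add_mul, casL_pr h, this]

/-- **the explicit solution of `θ b + [ω, ρ b] = 0`** -/
theorem omG_spec (hP : Pr P) (h4 : ∑ a, P a a = 4) (h : Cl P p ρ) (hθ : DerP P p ρ θ) (b : ι) :
    θ b + (omG ρ θ * ρ b - ρ b * omG ρ θ) = 0 := by
  obtain ⟨U, hU⟩ := Std94.exists_ON hP h4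
  have hγ := on_fr hU h
  obtain ⟨ω, hl, hr, -, hs⟩ := inner_fin hγ 0 (by simp) univ _ (der_fr U hθ) (by simp)
  have hτe : ∀ k, fr U θ k = fr U ρ k * ω - ω * fr U ρ k := fun k => by
    have := hs k (mem_univ k)
    rw [eq_neg_of_add_eq_zero_left this]; abel
  have he : ∑ a, ρ a * θ a = casL ρ ω - (4 : ℝ) • ω := by
    have h1 := sum_fr hU (LinearMap.mul ℝ A) hθ.proj ρ
    simp only [LinearMap.mul_apply'] at h1
    have : ∀ k, fr U ρ k * fr U θ k = sg (fr U ρ k) ω - ω := fun k => by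
      rw [hτe, mul_sub, ← mul_assoc, ← mul_assoc, hγ.sq, neg_mul, hl, sg_apply]; abel
    rw [← h1, casL_fr hU h]
    simp only [this, Fin.sum_univ_four]
    module
  have ho : omG ρ θ = ω - Std94.qp (casL ρ) ω := by
    rw [omG, he, sP_apply, Std94.qp]
    simp only [map_sub, map_smul]
    module
  let e : A →ₗ[ℝ] A := LinearMap.mulLeft ℝ p ∘ₗ LinearMap.mulRight ℝ p
  have ea : ∀ y, e y = p * (y * p) := fun _ => rfl
  have hq : ∀ i, sg (fr U ρ i) (Std94.qp (casL ρ) ω) = Std94.qp (casL ρ) ω := fun i =>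
    Std94.qp_four (fun i => sg (fr U ρ i)) e
      (fun i y => by
        have : sg (fr U ρ i) (sg (fr U ρ i) y) =
            (fr U ρ i * fr U ρ i) * (y * (fr U ρ i * fr U ρ i)) := by
          simp only [sg_apply]; noncomm_ring
        rw [this, hγ.sq, ea]; simp)
      (sg_comm hγ) (fun i y => by rw [ea, sg_pr hγ, sg_pl hγ])
      (fun i y => by
        rw [ea, sg_apply, sg_apply, ← mul_assoc, hγ.pr, mul_assoc, mul_assoc, hγ.pl, mul_assoc])
      (casL ρ) (casL_fr hU h) i ω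
  have hZr : Std94.qp (casL ρ) ω * p = Std94.qp (casL ρ) ω := by
    simp only [Std94.qp, smul_mul_assoc, add_mul, sub_mul, casL_pr h]
  have hc : ∀ i, fr U θ i + (omG ρ θ * fr U ρ i - fr U ρ i * omG ρ θ) = 0 := fun i => by
    rw [ho, sub_mul, mul_sub, comm_of_sg hγ i hZr (hq i), hτe]; abel
  have hθb : θ b = ∑ i, U i b • fr U θ i := by
    simp only [fr, smul_sum, smul_smul]
    rw [sum_comm]
    simp only [← sum_smul, hU.P, hθ.proj]
  rw [hθb, hU.rho_eq h b]
  simp only [mul_sum, sum_mul, mul_smul_comm, smul_mul_assoc, ← sum_sub_distrib,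
    ← sum_add_distrib, ← smul_sub, ← smul_add, hc, smul_zero, sum_const_zero]

theorem casL_comm {X T : A} (hρ : ∀ a, X * ρ a = ρ a * X) (hT : X * T = T * X) :
    X * casL ρ T = casL ρ T * X := by
  simp only [casL_apply, mul_neg, neg_mul, mul_sum, sum_mul]
  congr 1
  exact sum_congr rfl fun a _ => by
    rw [← mul_assoc, ← mul_assoc, hρ, mul_assoc _ X, hT, ← mul_assoc, mul_assoc _ X, hρ,
      ← mul_assoc]

theorem omG_comm {X : A} (hρ : ∀ a, X * ρ a = ρ a * X) (hθ : ∀ a, X * θ a = θ a * X) :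
    X * omG ρ θ = omG ρ θ * X := by
  have h0 : X * ∑ a, ρ a * θ a = (∑ a, ρ a * θ a) * X := by
    simp only [mul_sum, sum_mul]
    exact sum_congr rfl fun a _ => by rw [← mul_assoc, hρ, mul_assoc, hθ, mul_assoc]
  have h1 := casL_comm hρ h0
  have h2 := casL_comm hρ h1
  have h3 := casL_comm hρ h2
  simp only [omG, sP_apply, mul_smul_comm, smul_mul_assoc, mul_add, add_mul, h0, h1, h2, h3]

theorem omG_sum {κ : Type*} (s : Finset κ) (c : κ → ℝ) (θ : κ → ι → A) :
    omG ρ (fun b => ∑ k ∈ s, c k • θ k b) = ∑ k ∈ s, c k • omG ρ (θ k) := by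
  simp only [omG, ← map_smul, ← map_sum, mul_sum, mul_smul_comm, smul_sum]
  rw [sum_comm]

theorem omG_zero : omG ρ (fun _ => 0) = 0 := by simp [omG]

/-- closure: any submodule stable under multiplication by the `ρ a` -/
theorem omG_mem (S : Submodule ℝ A) (hS : ∀ a, ∀ T ∈ S, ρ a * T * ρ a ∈ S)
    (h0 : ∑ a, ρ a * θ a ∈ S) : omG ρ θ ∈ S := by
  have hc : ∀ T ∈ S, casL ρ T ∈ S := fun T hT => S.neg_mem (S.sum_mem fun a _ => hS a T hT)
  rw [omG, sP_apply]
  exact S.smul_mem _ (S.add_mem (S.add_mem (S.add_mem (hc _ (hc _ (hc _ h0)))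
    (S.smul_mem _ (hc _ (hc _ h0)))) (S.smul_mem _ (hc _ h0))) (S.smul_mem _ h0))

/-- naturality under multiplicative linear maps -/
theorem map_omG {A' : Type*} [Ring A'] [Algebra ℝ A'] (φ : A →ₗ[ℝ] A')
    (hφ : ∀ S T, φ (S * T) = φ S * φ T) (ρ θ : ι → A) :
    φ (omG ρ θ) = omG (fun a => φ (ρ a)) (fun a => φ (θ a)) := by
  have hc : ∀ T, φ (casL ρ T) = casL (fun a => φ (ρ a)) (φ T) := fun T => by
    simp only [casL_apply, map_neg, map_sum, hφ]
  simp only [omG, sP_apply, map_smul, map_add, hc, map_sum, hφ]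

theorem omG_apply {X : Type*} (ρ θ : ι → X → A) (x : X) :
    omG ρ θ x = omG (fun a => ρ a x) (fun a => θ a x) :=
  map_omG (A := X → A) (LinearMap.proj x) (fun _ _ => rfl) ρ θ

end

end Crest.Agent.X212.Spn45
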