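import Crest.Agent.X212.Spn45.Cc
import Crest.Agent.X212.Std94.Pt

/-!
# X212 / SPIN (helper45), file Pt: pointwise algebra of the determinant condition
-/

set_option autoImplicit false
set_option linter.unusedSectionVars false

open scoped InnerProductSpace
open Finset

noncomputable section
namespace Crest.Agent.X212.Spn45
open Std94

variable {V L : Type*} [NormedAddCommGroup V] [InnerProductSpace ℝ V] [FiniteDimensional ℝ V]
  [NormedAddCommGroup L] [InnerProductSpace ℝ L] [FiniteDimensional ℝ L]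
  {ι : Type*} [Fintype ι] {P : ι → ι → ℝ} {l il : L →L[ℝ] L} {p J : V →L[ℝ] V}
  {ρ : ι → V →L[ℝ] V} {j : L →L[ℝ] V →L[ℝ] V}

theorem sum_l (h : PL l il) : ∑ b, ‖l (stdOrthonormalBasis ℝ L b)‖ ^ 2 = 2 := by
  rw [← h.rk, LinearMap.trace_eq_sum_inner _ (stdOrthonormalBasis ℝ L)]
  refine sum_congr rfl fun b _ => ?_
  rw [← real_inner_self_eq_norm_sq, h.sym, ← mul_apply_eq_comp, h.idem]; rfl

/-- skew complex linear endomorphisms of the line are imaginary scalars -/
theorem line_skew (h : PL l il) {T : L →L[ℝ] L} (c1 : T * l = l * T) (c2 : il * T = T * il)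
    (c3 : Sk T) : T * l = (hs (il * l) T / 2) • (il * l) := by
  obtain ⟨t, ht⟩ := h.exists_lf
  have e0 : ⟪t, T t⟫_ℝ = 0 := by
    have := c3 t t
    rw [real_inner_comm] at this; linarith
  have e1 : T t = ⟪il t, T t⟫_ℝ • il t := by
    conv_lhs => rw [← ht.ls, ← mul_apply_eq_comp, c1, mul_apply_eq_comp, ht.dec, e0, zero_smul,
      zero_add]
  have e2 : T (il t) = il (T t) := by rw [← mul_apply_eq_comp, ← c2, mul_apply_eq_comp]
  generalize ⟪il t, T t⟫_ℝ = r at e1
  have e : T * l = r • (il * l) := by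
    ext1 v
    simp only [mul_apply_eq_comp, smul_apply, ht.dec v, map_add, map_smul, e2, e1]
    module
  have e3 : hs (il * l) T = 2 * r := by
    rw [hs_eq_sum (stdOrthonormalBasis ℝ L), ← sum_l h, sum_mul]
    refine sum_congr rfl fun b _ => ?_
    rw [h.comm, mul_apply_eq_comp, ← h.idem, mul_apply_eq_comp, h.sym, ← mul_apply_eq_comp l T,
      ← c1, e, ← mul_apply_eq_comp l il, ← h.comm, smul_apply, real_inner_smul_right,
      real_inner_self_eq_norm_sq, h.idem, mul_apply_eq_comp, h.norm_il, mul_comm]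
  rw [e, e3]; congr 1; ring

theorem PM.jp (h : PM P l il p J ρ j) (s : L) : j s * p = j s :=
  ContinuousLinearMap.ext fun v => ext_inner_left ℝ fun w => by
    rw [mul_apply_eq_comp, ← h.jsym, ← h.psym, ← mul_apply_eq_comp, h.pj, h.jsym]

theorem sum_jj (h : PM P l il p J ρ j) (hl : PL l il) :
    ∑ b, j (stdOrthonormalBasis ℝ L b) * j (stdOrthonormalBasis ℝ L b) = (2 : ℝ) • p := by
  simp only [h.jsq, ← sum_smul, sum_l hl]

theorem lie_Jp (h : PM P l il p J ρ j) (s : L) : J * p * j s - j s * (J * p) = (2 : ℝ) • (J * j s) := by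
  rw [mul_assoc, h.pj, ← mul_assoc, h.jJ, neg_mul, mul_assoc, PM.jp h, two_smul, sub_neg_eq_add]

/-- infinitesimal deformations of `j` are rotations -/
theorem jdef (h : PM P l il p J ρ j) (hl : PL l il) (hP : Wz78.Pr P) (ht : ∑ a, P a a = 4)
    {δ : L →L[ℝ] V →L[ℝ] V} (h1 : ∀ s, δ (l s) = δ s) (h2 : ∀ s, δ (il s) = J * δ s)
    (h3 : ∀ s, Sy (δ s)) (h4 : ∀ s, δ s * J = -(J * δ s)) (h5 : ∀ a s, δ s * ρ a = ρ a * δ s)
    (h6 : ∀ s, p * δ s = δ s) (h7 : ∀ s, δ s * j s + j s * δ s = 0) :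
    ∃ β : ℝ, ∀ s, δ s = β • (J * j s) := by
  obtain ⟨U, hU⟩ := exists_ON hP ht
  obtain ⟨t, hs⟩ := hl.exists_lf
  obtain ⟨u, hu⟩ := h.exists_frm hU hs
  have ap : ∀ {S T : V →L[ℝ] V}, S = T → ∀ v, S v = T v := fun e v => by rw [e]
  have kk : j t * j t = p := by rw [h.jsq, hs.ls, hs.n1, one_pow, one_smul]
  have kd : j t * δ t = -(δ t * j t) := eq_neg_of_add_eq_zero_right (h7 t)
  have dp : δ t * p = δ t := ContinuousLinearMap.ext fun v => ext_inner_left ℝ fun w => by
    rw [mul_apply_eq_comp, ← h3, ← h.psym, ← mul_apply_eq_comp, h6, h3]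
  have kT : j t * (J * δ t * j t) = J * δ t * j t * j t := by
    rw [← mul_assoc, ← mul_assoc, h.jJ, neg_mul, mul_assoc J, kd, mul_neg, neg_neg, ← mul_assoc]
  have i : Itw p J ρ j p J ρ j (J * δ t * j t) := by
    rw [itw_iff_it4 h h hU hs]
    refine ⟨ap (S := p * (J * δ t * j t)) ?_, ap (S := J * δ t * j t * p) ?_,
      fun a => ap (S := J * δ t * j t * fr U ρ a) (T := fr U ρ a * (J * δ t * j t)) ?_,
      ap (S := J * δ t * j t * J) (T := J * (J * δ t * j t)) ?_, ap kT.symm⟩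
    · rw [← mul_assoc, ← mul_assoc, ← h.Jp, mul_assoc J, h6]
    · rw [mul_assoc, PM.jp h]
    · exact (Commute.sum_right _ _ _ fun b _ => (((show Commute J _ from h.Jρ b).mul_left
        (h5 b t)).mul_left (h.jρ b t)).smul_right _).eq
    · rw [mul_assoc, h.jJ, mul_neg, mul_assoc J, ← mul_assoc (δ t), h4]
      simp only [mul_assoc, neg_mul, mul_neg, neg_neg]
  obtain ⟨c, hc⟩ := (itw_iff_Xi h h hU hs hu hu _).1 i
  have sy : Sy (J * δ t * j t) := fun v w => by
    have e : j t * (δ t * J) = -(J * δ t * j t) := by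
      rw [h4, mul_neg, ← mul_assoc, h.jJ, neg_mul, mul_assoc, kd]
      simp only [mul_assoc, mul_neg, neg_neg]
    simp only [mul_apply_eq_comp, h.Jsk, h3 t _, h.jsym]
    rw [← inner_neg_right]
    exact congrArg _ (neg_eq_iff_eq_neg.2 (ap e w))
  rw [hc] at sy
  rw [(symm_Xi_iff u c).1 sy, NF.Xi_coe hu (h.q4 hU hs)] at hc
  have e : δ t = (-c.re) • (J * j t) := by
    have := congrArg (fun T => J * (T * j t)) hc
    simp only [mul_assoc, kk, dp, smul_mul_assoc, h.pj, mul_smul_comm] at this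
    rw [← mul_assoc, h.Jsq, neg_one_mul] at this
    rw [neg_smul, ← this, neg_neg]
  refine ⟨-c.re, fun s => ?_⟩
  rw [← h1, hs.dec, map_add, map_smul, map_smul, h2, e, h.j_eq hs s]
  simp only [mul_add, mul_smul_comm]
  module

end Crest.Agent.X212.Spn45
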